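/-
Row 324 (S0582), PDE core, module AP (architect helper263), residual (A8), file Res/Prd:  CALCULUS OF THE PRODUCTS  prd q F A = F(Ξ) A(Y),     Ξ = XiF q = X/λ²,  Y = YF = X/Λ,  Λ = -t,  X = Xf y = 1-y².
      th f x = 2 x f'(x)  (Bohm/Defs.lean),      ttF f = -X ∂_y f  (PR/Sm.lean),      thF f = ttF f / y  (PR/Germ.lean: `thF_apply`, `thF_thF`).
      RULES:      thF (F(Ξ) A(Y)) = (th F)(Ξ) A(Y) + F(Ξ) (th A)(Y),          Λ ∂_t (F(Ξ) A(Y)) = γ (th F)(Ξ) A(Y) + F(Ξ) (th A)(Y)/2.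
Tools: PR/Sm.lean (`Sm.comp, Sm.mul, Sm.div, dY_mul, dY_comp, dT_mul, dT_comp, dY_of_hasDerivAt, hasDerivAt_Xf`),  AtmA (`sm_XiF, lam2_pos`; the proofs of `dY_atm`, `dT_atm` contain the derivatives of Ξ),  `th_contDiff_sc3` (Bohm/SymbCor3: th f is smooth).

* `sm_YF`:  `Sm.div sm_Xf sm_fst.neg` (-t ≠ 0 for t < 0).        `sm_prd`: `(Sm.comp hF (sm_XiF q)).mul (Sm.comp hA sm_YF)`.
* `dY_XiF`, `dY_YF`:  ∂_y (X/c) = -2y/c.           `dT_XiF`:  Ξ = X (-t)^(-2γ),  ∂_t Ξ = 2γ X (-t)^(-2γ-1) = 2γ Ξ/Λ, i.e.  Λ ∂_t Ξ = 2γ Ξ.           `dT_YF`:  Λ ∂_t Y = Y.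
* `ttF_prd`:  -X ∂_y (F(Ξ) A(Y)) = -X (F'(Ξ) (-2y/λ²) A + F A'(Y) (-2y/Λ)) = y (2Ξ F'(Ξ) A + F 2Y A'(Y)).
* `dT_prd`:   Λ (F'(Ξ) ∂_tΞ A + F A'(Y) ∂_t Y) = 2γ Ξ F' A + F Y A' = γ (th F) A + F (th A)/2.
* `thF_prd`:  `thF_apply`, `ttF_prd`, y ≠ 0.
* `thF2_prd`: `thF_thF` (needs Sm):  thF (thF f) = ttF (ttF f)/y² + X ttF f/y³;    ttF f = y g on t < 0 for ALL y, g = prd (th F) A + prd F (th A) (Sm);   so ttF (ttF f) (t,y) = -X ∂_y (y g) = -X g + y ttF g  (`dY_congr`, `dY_mul`, `dY_snd`)  and  ttF g = y (prd (th² F) A + 2 prd (th F)(th A) + prd F (th² A))  by `ttF_prd` twice (`dY_add`).    Sum:  (-X g + y² g₂)/y² + X y g/y³ = g₂.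
-/
import Claimed.Agent.R324.Core.AP.BgA1
import Claimed.Agent.R324.Core.PR.Germ

set_option autoImplicit false

namespace Claimed.Agent.R324.Core

open Set Filter Topology
open scoped ContDiff

noncomputable section

/-- `Y = X/Λ`. -/
def YF : Fn := fun p => Xf p.2 / (-p.1)

/-- `F(Ξ) A(Y)`. -/
def prd (q : ℝ) (F A : ℝ → ℝ) : Fn := fun p => F (XiF q p) * A (YF p)

/-- `Σ_{j=1}^8 c_j Y^j`. -/
def polA (c : ℕ → ℝ) (Y : ℝ) : ℝ := ∑ j ∈ Finset.range 8, c (j + 1) * Y ^ (j + 1)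

/-- the coefficients of `th A`. -/
def cTh (c : ℕ → ℝ) (j : ℕ) : ℝ := 2 * j * c j

/-- hygiene. -/
theorem core_ap_prd_hygiene : True := by
  have := @YF.eq_1
  have := @prd.eq_1
  have := @polA.eq_1
  have := @cTh.eq_1
  trivial

variable {q t y : ℝ} {F A : ℝ → ℝ} {f g : Fn}

theorem ap_prd_hasDerivAt_y_XiF (q t y : ℝ) : HasDerivAt (fun z => XiF q (t, z)) (-2 * y / lam2 q t) y := by
  unfold XiF
  exact (hasDerivAt_Xf y).div_const (lam2 q t)

theorem ap_prd_hasDerivAt_y_YF (t y : ℝ) : HasDerivAt (fun z => YF (t, z)) (-2 * y / (-t)) y := by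
  unfold YF
  exact (hasDerivAt_Xf y).div_const (-t)

theorem ap_prd_hasDerivAt_t_XiF (q : ℝ) (ht : t < 0) (y : ℝ) :
    ∃ d : ℝ, HasDerivAt (fun r => XiF q (r, y)) d t ∧ (-t) * d = 2 * gaF q * XiF q (t, y) := by
  have hl : 0 < -t := by linarith
  have hpow : ∀ a : ℝ, HasDerivAt (fun r : ℝ => (-r) ^ a) (-(a * (-t) ^ (a - 1))) t := by
    intro a
    have h0 : HasDerivAt (fun r : ℝ => -r) (-1) t := (hasDerivAt_id t).neg
    have h1 := h0.rpow_const (p := a) (Or.inl hl.ne')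
    refine h1.congr_deriv ?_
    ring
  have hX : HasDerivAt (fun r => XiF q (r, y)) (Xf y * (2 * gaF q * (-t) ^ (-(2 * gaF q) - 1))) t := by
    have h2 := (hpow (-(2 * gaF q))).const_mul (Xf y)
    have e : (fun r => XiF q (r, y)) =ᶠ[𝓝 t] fun r => Xf y * (-r) ^ (-(2 * gaF q)) := by
      filter_upwards [Iio_mem_nhds ht] with r hr
      have hr' : 0 ≤ -r := by
        have : r < 0 := hr
        linarith
      unfold XiF lam2
      rw [Real.rpow_neg hr']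
      rfl
    refine (h2.congr_of_eventuallyEq e).congr_deriv ?_
    ring
  refine ⟨_, hX, ?_⟩
  have e2 : (-t) ^ (-(2 * gaF q) - 1) = (-t) ^ (-(2 * gaF q)) * (-t)⁻¹ := by
    rw [sub_eq_add_neg, Real.rpow_add hl, Real.rpow_neg_one]
  have e4 : XiF q (t, y) = Xf y * (-t) ^ (-(2 * gaF q)) := by
    unfold XiF lam2
    rw [Real.rpow_neg hl.le]
    rfl
  rw [e2, e4]
  have ht0 : t ≠ 0 := ht.ne
  field_simp

theorem ap_prd_hasDerivAt_t_YF (ht : t < 0) (y : ℝ) :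
    ∃ d : ℝ, HasDerivAt (fun r => YF (r, y)) d t ∧ (-t) * d = YF (t, y) := by
  have hl : -t ≠ 0 := by linarith
  have h0 : HasDerivAt (fun r : ℝ => -r) (-1) t := (hasDerivAt_id t).neg
  have h1 := (h0.inv hl).const_mul (Xf y)
  refine ⟨_, h1.congr_of_eventuallyEq (Eventually.of_forall fun r => ?_), ?_⟩
  · simp only [YF, div_eq_mul_inv, Pi.inv_apply]
  · simp only [YF]
    field_simp

theorem sm_YF : Sm YF := by
  unfold YF
  exact Sm.div sm_Xf sm_fst.neg (fun t ht y => by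
    show -t ≠ 0
    linarith)

theorem sm_prd (q : ℝ) (hF : ContDiff ℝ ∞ F) (hA : ContDiff ℝ ∞ A) : Sm (prd q F A) := by
  unfold prd
  exact (Sm.comp hF (sm_XiF q)).mul (Sm.comp hA sm_YF)

theorem ttF_prd (q : ℝ) (hF : ContDiff ℝ ∞ F) (hA : ContDiff ℝ ∞ A) (ht : t < 0) (y : ℝ) :
    ttF (prd q F A) (t, y) = y * (prd q (th F) A (t, y) + prd q F (th A) (t, y)) := by
  have hF1 : HasDerivAt F (deriv F (XiF q (t, y))) (XiF q (t, y)) :=
    ((hF.differentiable (by simp)) _).hasDerivAt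
  have hA1 : HasDerivAt A (deriv A (YF (t, y))) (YF (t, y)) :=
    ((hA.differentiable (by simp)) _).hasDerivAt
  have h := (hF1.comp y (ap_prd_hasDerivAt_y_XiF q t y)).mul (hA1.comp y (ap_prd_hasDerivAt_y_YF t y))
  have h' : dY (prd q F A) (t, y) = _ := h.deriv
  rw [ttF_apply, h']
  have hΞ : XiF q (t, y) = Xf y / lam2 q t := rfl
  have hY : YF (t, y) = Xf y / (-t) := rfl
  simp only [prd, th, Function.comp]
  linear_combination (-(2 * y * deriv F (XiF q (t, y)) * A (YF (t, y)))) * hΞ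
    + (-(2 * y * F (XiF q (t, y)) * deriv A (YF (t, y)))) * hY

theorem dT_prd (q : ℝ) (hF : ContDiff ℝ ∞ F) (hA : ContDiff ℝ ∞ A) (ht : t < 0) (y : ℝ) :
    (-t) * dT (prd q F A) (t, y) = gaF q * prd q (th F) A (t, y) + prd q F (th A) (t, y) / 2 := by
  have hF1 : HasDerivAt F (deriv F (XiF q (t, y))) (XiF q (t, y)) :=
    ((hF.differentiable (by simp)) _).hasDerivAt
  have hA1 : HasDerivAt A (deriv A (YF (t, y))) (YF (t, y)) :=
    ((hA.differentiable (by simp)) _).hasDerivAt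
  obtain ⟨d1, hd1, e1⟩ := ap_prd_hasDerivAt_t_XiF q ht y
  obtain ⟨d2, hd2, e2⟩ := ap_prd_hasDerivAt_t_YF ht y
  have h := (hF1.comp t hd1).mul (hA1.comp t hd2)
  have h' : dT (prd q F A) (t, y) = _ := h.deriv
  rw [h']
  simp only [prd, th, Function.comp]
  linear_combination (deriv F (XiF q (t, y)) * A (YF (t, y))) * e1
    + (F (XiF q (t, y)) * deriv A (YF (t, y))) * e2

theorem thF_prd (q : ℝ) (hF : ContDiff ℝ ∞ F) (hA : ContDiff ℝ ∞ A) (ht : t < 0) (hy : y ≠ 0) :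
    thF (prd q F A) (t, y) = prd q (th F) A (t, y) + prd q F (th A) (t, y) := by
  rw [thF_apply, ttF_prd q hF hA ht y]
  field_simp

theorem thF2_prd (q : ℝ) (hF : ContDiff ℝ ∞ F) (hA : ContDiff ℝ ∞ A) (ht : t < 0) (hy : y ≠ 0) :
    thF (thF (prd q F A)) (t, y)
      = prd q (th (th F)) A (t, y) + 2 * prd q (th F) (th A) (t, y) + prd q F (th (th A)) (t, y) := by
  have hF' := th_contDiff_sc3 hF
  have hA' := th_contDiff_sc3 hA
  have hg1 : Sm (prd q (th F) A) := sm_prd q hF' hA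
  have hg2 : Sm (prd q F (th A)) := sm_prd q hF hA'
  have hg : Sm (fun p => prd q (th F) A p + prd q F (th A) p) := hg1.add hg2
  have h1 : dY (ttF (prd q F A)) (t, y)
      = dY (fun p => p.2 * (prd q (th F) A p + prd q F (th A) p)) (t, y) :=
    dY_congr (fun z => ttF_prd q hF hA ht z) y
  have h2 : ttF (ttF (prd q F A)) (t, y)
      = -(Xf y) * (prd q (th F) A (t, y) + prd q F (th A) (t, y))
        + y * (ttF (prd q (th F) A) (t, y) + ttF (prd q F (th A)) (t, y)) := by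
    rw [ttF_apply, h1, dY_y_mul hg ht y, dY_add hg1 hg2 ht y, ttF_apply, ttF_apply]
    ring
  rw [thF_thF (sm_prd q hF hA) ht hy, h2, ttF_prd q hF hA ht y, ttF_prd q hF' hA ht y,
    ttF_prd q hF hA' ht y]
  field_simp
  ring

end

end Claimed.Agent.R324.Core
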