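/-
Row 324 (S0582), PDE core, module AP (architect helper263), residual (A8), file Res/Prd2:  linearity of thF, the polynomials  polA c Y = Σ_{j=1}^8 c_j Y^j.       Definitions: Res/Prd.lean.
      th f x = 2 x f'(x)  (Bohm/Defs.lean),      ttF f = -X ∂_y f  (PR/Sm.lean),      thF f = ttF f / y  (PR/Germ.lean: `thF_apply`, `thF_thF`).
* `thF_add`, `thF_of_t`, `thF2_add`, `thF2_of_t`:  linearity (`dY_add`, `dY_of_t`; for thF2 use `thF_thF` and ttF (ttF (f+g)) = ttF (ttF f) + ttF (ttF g):  ttF (f+g) = ttF f + ttF g holds for all (t,y), t < 0, then `dY_congr`/`dY_add` with `Sm.ttF`).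
* `polA_contDiff`: finite sum of monomials (`ContDiff.sum`, `contDiff_const.mul (contDiff_id.pow _)`).
* `th_polA`:  th (c Y^(j+1)) = 2 (j+1) c Y^(j+1)   (`deriv_fun_sum`/`deriv_sum`, `deriv_const_mul`, `deriv_pow`;  2 Y (j+1) Y^j = 2 (j+1) Y^(j+1));   cTh c (j+1) = 2 (j+1) c (j+1) (push_cast).
* `hPol_polA`:  X Λ^(-8) Σ c_{j+1} Λ^(7-j) X^j = Σ c_{j+1} (X/Λ)^(j+1):   termwise (`Finset.mul_sum`, `Finset.sum_congr`), for j < 8:  Λ^(-8:ℝ) = (Λ^8)⁻¹ (`Real.rpow_neg`, `Real.rpow_natCast`), Λ^8 = Λ^(7-j) Λ^(j+1) (`pow_add`, 7-j+(j+1) = 8 by omega), `div_pow`, field_simp.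
-/
import Claimed.Agent.R324.Core.AP.Res.Prd

set_option autoImplicit false

namespace Claimed.Agent.R324.Core

open Set Filter Topology
open scoped ContDiff

noncomputable section

variable {q t y : ℝ} {F A : ℝ → ℝ} {f g : Fn}

theorem thF_add (hf : Sm f) (hg : Sm g) (ht : t < 0) (y : ℝ) :
    thF (fun p => f p + g p) (t, y) = thF f (t, y) + thF g (t, y) := by
  simp only [thF_apply, ttF_apply]
  rw [dY_add hf hg ht y]
  ring

theorem thF_of_t (φ : ℝ → ℝ) (p : ℝ × ℝ) : thF (fun p => φ p.1) p = 0 := by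
  simp only [thF_apply, ttF_apply]
  rw [dY_of_t φ p]
  simp

theorem ap_ttF_add (hf : Sm f) (hg : Sm g) (ht : t < 0) (y : ℝ) :
    ttF (fun p => f p + g p) (t, y) = ttF f (t, y) + ttF g (t, y) := by
  simp only [ttF_apply]
  rw [dY_add hf hg ht y]
  ring

theorem thF2_add (hf : Sm f) (hg : Sm g) (ht : t < 0) (hy : y ≠ 0) :
    thF (thF (fun p => f p + g p)) (t, y) = thF (thF f) (t, y) + thF (thF g) (t, y) := by
  rw [thF_thF (hf.add hg) ht hy, thF_thF hf ht hy, thF_thF hg ht hy, ap_ttF_add hf hg ht y]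
  have h2 : ttF (ttF (fun p => f p + g p)) (t, y) = ttF (ttF f) (t, y) + ttF (ttF g) (t, y) := by
    rw [← ap_ttF_add hf.ttF hg.ttF ht y]
    simp only [ttF_apply (ttF _), ttF_apply (fun p => ttF f p + ttF g p)]
    rw [dY_congr (f := ttF (fun p => f p + g p)) (g := fun p => ttF f p + ttF g p)
      (fun z => ap_ttF_add hf hg ht z) y]
  rw [h2]
  ring

theorem thF2_of_t (φ : ℝ → ℝ) (p : ℝ × ℝ) : thF (thF (fun p => φ p.1)) p = 0 := by
  have h : thF (fun p => φ p.1) = fun p : ℝ × ℝ => (fun _ : ℝ => (0 : ℝ)) p.1 := by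
    funext p
    exact thF_of_t φ p
  rw [h]
  exact thF_of_t (fun _ : ℝ => (0 : ℝ)) p

theorem polA_contDiff (c : ℕ → ℝ) : ContDiff ℝ ∞ (polA c) := by
  unfold polA
  exact ContDiff.sum fun j _ => contDiff_const.mul (contDiff_id.pow _)

theorem th_polA (c : ℕ → ℝ) : th (polA c) = polA (cTh c) := by
  funext Y
  have h : HasDerivAt (polA c) (∑ j ∈ Finset.range 8, c (j + 1) * (((j + 1 : ℕ) : ℝ) * Y ^ j)) Y := by
    unfold polA
    refine HasDerivAt.fun_sum fun j _ => ?_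
    have := (hasDerivAt_pow (j + 1) Y).const_mul (c (j + 1))
    simpa using this
  unfold th
  rw [h.deriv]
  unfold polA cTh
  rw [Finset.mul_sum]
  refine Finset.sum_congr rfl fun j _ => ?_
  push_cast
  ring

theorem hPol_polA (c : ℕ → ℝ) (ht : t < 0) (y : ℝ) :
    Xf y * ((-t) ^ (-(8 : ℝ)) * hPol c (t, y)) = polA c (YF (t, y)) := by
  have hL : 0 < -t := by linarith
  have h8 : (-t) ^ (-(8 : ℝ)) = ((-t) ^ 8)⁻¹ := by
    rw [Real.rpow_neg hL.le]
    norm_cast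
  rw [h8]
  unfold hPol polA YF
  simp only
  rw [Finset.mul_sum, Finset.mul_sum]
  refine Finset.sum_congr rfl fun j hj => ?_
  have hj8 : j < 8 := Finset.mem_range.mp hj
  have hp : (-t) ^ 8 = (-t) ^ (7 - j) * (-t) ^ (j + 1) := by
    rw [← pow_add]
    congr 1
    omega
  rw [hp, div_pow]
  have h1 : (-t) ^ (7 - j) ≠ 0 := pow_ne_zero _ hL.ne'
  have h2 : (-t) ^ (j + 1) ≠ 0 := pow_ne_zero _ hL.ne'
  field_simp
  ring

end

end Claimed.Agent.R324.Core
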