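/-
Row 324 (S0582), PDE core, module AP (architect helper263), residual (A8), file Res/Prof:  THE ODE RELATIONS OF BOHM'S PROFILE in the form used by the residual.
      h : BP q w z  (TipA):  h.bohm : IsBohm q w z  (fields eqW, eqH, eqZ on Ξ ≥ 0, smw, smz; Bohm/Defs.lean),  h.pos : z > 0 on ℝ.        J = bJ w = 2 - th w,   J_a = bJa z = -th z/z,   P = bP w,  Q = th w,  n = q-1.
      th f Ξ = 2 Ξ f'(Ξ).

* `th_bJ`:     J = 2 - th w  ⟹  th J = - th (th w)     (unfold th bJ; `deriv_const_sub`).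
* `prof_W`:    (W):  z th(th w) + n th w = 2P  (`eqW`) with th(th w) = - th J.
* `th_logz`:   (log z)' = z'/z  (`Real.deriv_log`-type: `deriv.log`/`HasDerivAt.log`, z Ξ ≠ 0), so th (log ∘ z) = th z/z = -J_a.
* `prof_Z1`:   (Z1):  th z = 2n(1-z) - 2 z Q  ⟹   z J_a = -th z = -2n(1-z) + 2 z Q      (z ≠ 0: z * (-th z/z) = -th z).
* `prof_H`:    `eqH`:  z = bz q (P,Q) = bN/bD;   bD > 0 because (P,Q) ∈ bU … simplest:  for Ξ > 0 `h.bohm.reg` gives (P,Q) ∈ bReg ⊆ bTri: P, Q > 0, hence bD = q(q-1) + 2qQ + Q²/2 > 0;   multiply.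
* `prof_thJa`: on the OPEN set Ξ > 0 the identity  J_a = -2n (1/z - 1) + 2 th w  holds (from `prof_Z1`, divide by z), so the derivatives agree (`Filter.EventuallyEq.deriv_eq`, `Ioi_mem_nhds`):
                   th J_a = -2n th(1/z) + 2 th(th w),    th (1/z) = -th z/z² = J_a/z;      multiply by z and use (W):  z th(th w) = 2P - n Q.
* `prof_Z2`:   `ap_alg_Z2` (Res/Alg.lean) with `prof_Z1`, `prof_thJa`, `prof_H`.
* `th_th_logz`: th (th (log ∘ z)) = - th J_a:   `th_logz` as an equality of functions (funext), then th (-f) = - th f (`deriv.neg`/`deriv_neg`).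
-/
import Claimed.Agent.R324.Core.AP.Res.Alg
import Claimed.Agent.R324.Core.AP.TipB

set_option autoImplicit false

namespace Claimed.Agent.R324.Core

open Set Filter Topology
open scoped ContDiff

noncomputable section

variable {q : ℕ} {w z : ℝ → ℝ}

theorem th_bJ (w : ℝ → ℝ) (Ξ : ℝ) : th (bJ w) Ξ = -th (th w) Ξ := by
  show 2 * Ξ * deriv (fun x => 2 - th w x) Ξ = -(2 * Ξ * deriv (th w) Ξ)
  rw [deriv_const_sub]; ring

theorem BP.prof_W (h : BP q w z) {Ξ : ℝ} (hΞ : 0 ≤ Ξ) :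
    z Ξ * (-th (bJ w) Ξ) + ((q : ℝ) - 1) * th w Ξ = 2 * bP w Ξ := by
  rw [th_bJ, neg_neg]
  exact h.bohm.eqW Ξ hΞ

theorem BP.ap_dz (h : BP q w z) (Ξ : ℝ) : DifferentiableAt ℝ z Ξ :=
  (h.bohm.smz.differentiable (by simp)).differentiableAt

theorem BP.th_logz (h : BP q w z) (Ξ : ℝ) : th (fun x => Real.log (z x)) Ξ = -bJa z Ξ := by
  have hz : z Ξ ≠ 0 := (h.pos Ξ).ne'
  unfold th bJa th
  rw [deriv.log (h.ap_dz Ξ) hz]
  ring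

theorem BP.th_th_logz (h : BP q w z) (Ξ : ℝ) :
    th (th (fun x => Real.log (z x))) Ξ = -th (bJa z) Ξ := by
  have h1 : th (fun x => Real.log (z x)) = fun x => -bJa z x := funext fun x => h.th_logz x
  rw [h1]
  show 2 * Ξ * deriv (fun x => -bJa z x) Ξ = -(2 * Ξ * deriv (bJa z) Ξ)
  rw [deriv.fun_neg]; ring

theorem BP.prof_Z1 (h : BP q w z) {Ξ : ℝ} (hΞ : 0 ≤ Ξ) :
    z Ξ * bJa z Ξ = -2 * ((q : ℝ) - 1) * (1 - z Ξ) + 2 * z Ξ * th w Ξ := by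
  have hz : z Ξ ≠ 0 := (h.pos Ξ).ne'
  have h1 : z Ξ * bJa z Ξ = -th z Ξ := by
    unfold bJa
    field_simp
  rw [h1, h.bohm.eqZ Ξ hΞ]
  ring

theorem BP.prof_H (h : BP q w z) {Ξ : ℝ} (hΞ : 0 < Ξ) :
    z Ξ * ((q : ℝ) * ((q : ℝ) - 1) + 2 * (q : ℝ) * th w Ξ + th w Ξ ^ 2 / 2)
      = (q : ℝ) * ((q : ℝ) - 1) + 2 * bP w Ξ := by
  have hq := h.hqR
  have hreg := h.bohm.reg Ξ hΞ
  have hQ : 0 < th w Ξ := hreg.1.2.1
  have hD : 0 < (q : ℝ) * ((q : ℝ) - 1) + 2 * (q : ℝ) * th w Ξ + th w Ξ ^ 2 / 2 := by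
    have h1 : 0 < (q : ℝ) * ((q : ℝ) - 1) := mul_pos (by linarith) (by linarith)
    have h2 : 0 < 2 * (q : ℝ) * th w Ξ := mul_pos (by linarith) hQ
    positivity
  have hH : z Ξ = ((q : ℝ) * ((q : ℝ) - 1) + 2 * bP w Ξ)
      / ((q : ℝ) * ((q : ℝ) - 1) + 2 * (q : ℝ) * th w Ξ + th w Ξ ^ 2 / 2) := h.bohm.eqH Ξ hΞ.le
  rw [hH]
  exact div_mul_cancel₀ _ hD.ne'

theorem BP.prof_thJa (h : BP q w z) {Ξ : ℝ} (hΞ : 0 < Ξ) :
    z Ξ * th (bJa z) Ξ = -2 * ((q : ℝ) - 1) * bJa z Ξ + 4 * bP w Ξ - 2 * ((q : ℝ) - 1) * th w Ξ := by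
  have hz : z Ξ ≠ 0 := (h.pos Ξ).ne'
  have hev : bJa z =ᶠ[𝓝 Ξ] fun x => -2 * ((q : ℝ) - 1) * ((z x)⁻¹ - 1) + 2 * th w x := by
    filter_upwards [Ioi_mem_nhds hΞ] with x hx
    have hzx : z x ≠ 0 := (h.pos x).ne'
    have h1 := h.prof_Z1 (Ξ := x) (le_of_lt hx)
    field_simp
    linarith
  have hdthw : DifferentiableAt ℝ (th w) Ξ := by
    have h1 : ContDiff ℝ 1 (deriv w) := by
      have h0 : ContDiff ℝ (1 + 1) w := h.bohm.smw.of_le (by norm_cast)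
      exact ((contDiff_succ_iff_deriv (n := 1)).1 h0).2.2
    have h2 : DifferentiableAt ℝ (deriv w) Ξ := (h1.differentiable (by simp)).differentiableAt
    unfold th
    fun_prop
  have hdinv : HasDerivAt (fun x => (z x)⁻¹) (-deriv z Ξ / z Ξ ^ 2) Ξ :=
    (h.ap_dz Ξ).hasDerivAt.inv hz
  have hd : HasDerivAt (fun x => -2 * ((q : ℝ) - 1) * ((z x)⁻¹ - 1) + 2 * th w x)
      (-2 * ((q : ℝ) - 1) * (-deriv z Ξ / z Ξ ^ 2) + 2 * deriv (th w) Ξ) Ξ :=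
    ((hdinv.sub_const 1).const_mul _).add (hdthw.hasDerivAt.const_mul 2)
  have hderiv : deriv (bJa z) Ξ
      = -2 * ((q : ℝ) - 1) * (-deriv z Ξ / z Ξ ^ 2) + 2 * deriv (th w) Ξ := by
    rw [hev.deriv_eq, hd.deriv]
  have hW := h.bohm.eqW Ξ hΞ.le
  have hthth : th (th w) Ξ = 2 * Ξ * deriv (th w) Ξ := rfl
  have hJa : bJa z Ξ = -(2 * Ξ * deriv z Ξ) / z Ξ := rfl
  have hth : th (bJa z) Ξ = 2 * Ξ * deriv (bJa z) Ξ := rfl
  rw [hth, hderiv, hJa]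
  rw [hthth] at hW
  field_simp
  linear_combination (2 * z Ξ) * hW

theorem BP.prof_Z2 (h : BP q w z) {Ξ : ℝ} (hΞ : 0 < Ξ) :
    -z Ξ * th (bJa z) Ξ + z Ξ * bJa z Ξ ^ 2 / 2 + 2 * z Ξ * bJa z Ξ - ((q : ℝ) - 1) * bJa z Ξ
      - z Ξ * th w Ξ ^ 2 + 2 * ((q : ℝ) - 1) * (1 - z Ξ) = 0 :=
  ap_alg_Z2 q (z Ξ) (bJa z Ξ) (th (bJa z) Ξ) (th w Ξ) (bP w Ξ) (h.prof_Z1 hΞ.le) (h.prof_thJa hΞ)
    (h.prof_H hΞ)

end

end Claimed.Agent.R324.Core
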