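/-
Row 324 (S0582), PDE core, module AP (architect helper263), residual (A8), file Res/JetT:  THE th-JETS AND THE TIME DERIVATIVE OF  w_tip = wtip q w  AND  ζ = zeF q z.
      Ξ = XiF q (t,y),  Y = YF (t,y),   J = bJ w,  J_a = bJa z,   A = polA (aW q),  th A = polA (cTh (aW q)),  th² A = polA (cTh (cTh (aW q)));   the same with aZ.
      Rules: Res/Prd.lean (`thF_prd, thF2_prd, dT_prd, sm_prd`), Res/Prd2.lean (`thF_add, thF2_add, thF_of_t, thF2_of_t, th_polA, hPol_polA, polA_contDiff`), Res/Prof.lean (`th_logz, th_th_logz`).     Definitions: Core/AP/Defs.lean.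
      To transport a jet along an identity f = g which holds for all t < 0 and all y:   dY_congr, dT_congr (PR/Sm.lean), or `thF_congr`, `thF2_congr` below.

* `thF_congr`, `thF2_congr`:  thF f = -X ∂_y f/y;  if f (t,·) = g (t,·) then ∂_y f (t,·) = ∂_y g (t,·) (`dY_congr`), so thF f (t,·) = thF g (t,·), and once more.
* `thF_cmp`, `thF2_cmp`, `dT_cmp`:   F(Ξ) = prd q F (fun _ => 1) (mul_one);   th (fun _ => 1) = 0 (deriv_const);  `thF_prd`, `thF2_prd`, `dT_prd`.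
* `uWF_prd`:   uWF = X (atm 8 J * hPol aW) = J(Ξ) (X Λ^(-8) hPol aW) = J(Ξ) A(Y)   (`hPol_polA`; unfold uWF uW1 atm prd; ring-type rearrangement).      `uZF_prd` the same.
* `zeF_prd`:   zeF = X (atm (2γ) l + uZ1);    X Λ^(-2γ) = X/λ² = Ξ  (`Real.rpow_neg`, lam2),   Ξ l(Ξ) = log z(Ξ)  (`IsBohm.bl_spec`).
-/
import Claimed.Agent.R324.Core.AP.Res.Prd2
import Claimed.Agent.R324.Core.AP.Res.Prof

set_option autoImplicit false

namespace Claimed.Agent.R324.Core

open Set Filter Topology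
open scoped ContDiff

noncomputable section

variable {t y : ℝ} {f g : Fn} {F : ℝ → ℝ}

theorem thF_congr (h : ∀ y, f (t, y) = g (t, y)) (y : ℝ) : thF f (t, y) = thF g (t, y) := by
  rw [thF_apply, thF_apply]
  unfold ttF
  rw [dY_congr h y]

theorem thF2_congr (h : ∀ y, f (t, y) = g (t, y)) (y : ℝ) :
    thF (thF f) (t, y) = thF (thF g) (t, y) :=
  thF_congr (fun y => thF_congr h y) y

theorem ap_cmp_eq_prd (q : ℝ) (F : ℝ → ℝ) : (fun p => F (XiF q p)) = prd q F (fun _ => 1) := by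
  funext p
  simp [prd]

theorem ap_th_one : th (fun _ : ℝ => (1 : ℝ)) = fun _ => 0 := by
  funext x
  simp [th]

theorem ap_th_zero : th (fun _ : ℝ => (0 : ℝ)) = fun _ => 0 := by
  funext x
  simp [th]

theorem thF_cmp (q : ℝ) (hF : ContDiff ℝ ∞ F) (ht : t < 0) (hy : y ≠ 0) :
    thF (fun p => F (XiF q p)) (t, y) = th F (XiF q (t, y)) := by
  rw [ap_cmp_eq_prd, thF_prd q hF contDiff_const ht hy, ap_th_one]
  simp [prd]

theorem thF2_cmp (q : ℝ) (hF : ContDiff ℝ ∞ F) (ht : t < 0) (hy : y ≠ 0) :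
    thF (thF (fun p => F (XiF q p))) (t, y) = th (th F) (XiF q (t, y)) := by
  rw [ap_cmp_eq_prd, thF2_prd q hF contDiff_const ht hy, ap_th_one, ap_th_zero]
  simp [prd]

theorem dT_cmp (q : ℝ) (hF : ContDiff ℝ ∞ F) (ht : t < 0) (y : ℝ) :
    (-t) * dT (fun p => F (XiF q p)) (t, y) = gaF q * th F (XiF q (t, y)) := by
  rw [ap_cmp_eq_prd, dT_prd q hF contDiff_const ht y, ap_th_one]
  simp [prd]

variable {q : ℕ} {w z : ℝ → ℝ}

theorem uWF_prd (q : ℝ) (w : ℝ → ℝ) (ht : t < 0) (y : ℝ) :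
    uWF q w (t, y) = bJ w (XiF q (t, y)) * polA (aW q) (YF (t, y)) := by
  rw [← hPol_polA (aW q) ht y]
  simp only [uWF, uW1, atm]
  ring

theorem uZF_prd (q : ℝ) (z : ℝ → ℝ) (ht : t < 0) (y : ℝ) :
    uZF q z (t, y) = bJa z (XiF q (t, y)) * polA (aZ q) (YF (t, y)) := by
  rw [← hPol_polA (aZ q) ht y]
  simp only [uZF, uZ1, atm]
  ring

theorem BP.zeF_prd (h : BP q w z) (ht : t < 0) (y : ℝ) :
    zeF q z (t, y) = Real.log (z (XiF q (t, y))) + bJa z (XiF q (t, y)) * polA (aZ q) (YF (t, y)) := by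
  rw [← uZF_prd (q : ℝ) z ht y, h.bohm.bl_spec h.pos]
  have e : Xf y * (-t) ^ (-(2 * gaF (q : ℝ))) = XiF q (t, y) := by
    rw [Real.rpow_neg (by linarith)]
    rfl
  simp only [zeF, ze1, uZF, atm]
  rw [mul_add, ← mul_assoc, e]

end

end Claimed.Agent.R324.Core
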