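/-
Row 324 (S0582), PDE core, module AP (architect helper263), residual (A8), file Res/JetG:  THE JETS OF  g = bgA q w z  ON THE OPEN NORTHERN STRIP   t < 0,  19/20 < y < 1.
      There ψ₁ = 1 near y (`psi1_eq_one`, PR/SmR.lean: ψ₁(y) = 1 for y ≥ 19/20), so  g.B = B_tip, g.w = w_tip as germs;   X = Xf y = 1-y² ∈ (0,1),  y ≠ 0,  Ξ = X/λ² > 0.
      ζ = zeF q z,  E = exp ζ,  ζ1 = dY ζ,  ζ2 = dY (dY ζ),  w1 = dY w_tip,  w2 = dY (dY w_tip).          Definitions: Core/AP/Defs.lean, Core/Defs.lean (`Bg.Z, Bg.dd, Bg.wp, Bg.wpp`).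
Tools:  `evEq_dY`, `evEq_dT` (Cal/ClsC: germ equality passes to dY, dT),  `Filter.EventuallyEq.eq_of_nhds`,   `X_Btip` (TipE):  X B_tip = y² exp(-ζ) - 1 at every point,   PR/Sm.lean (dY_mul, dY_exp, dY_comp, dT_…),  smoothness:  `(h.ts_zeF domOK_empty domN_empty (m := 0) (n := 0) (by norm_num)).sm`, `h.sm_wtip`, `(h.ts_Btip …).sm`.

* `bgA_ev_B`, `bgA_ev_w`:  the set {p | 19/20 < p.2} is open (`isOpen_lt continuous_const continuous_snd`) and contains (t,y);  on it ψ₁ = 1, so ψ₁ B_tip = B_tip.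
* `jg_B`:    X B_tip = y² exp(-ζ) - 1,  exp(-ζ) = 1/E (`Real.exp_neg`), divide by X ≠ 0.
* `jg_Z`:    Z = 1/(1 + X B) = 1/(y²/E) = E/y².
* `jg_dd`:   𝖽 = dY (X g.B);   X g.B = y² exp(-ζ) - 1 near (t,y)  (germ; `X_Btip`);   ∂_y (y² exp(-ζ) - 1) = 2y exp(-ζ) - y² ζ1 exp(-ζ) = (2y - y² ζ1)/E.
* `jg_wp`, `jg_wpp`, `jg_dTw`:  germs.
* `jg_dTB`:  dT g.B = dT B_tip (germ);   X dT B_tip = dT (X B_tip) = dT (y² exp(-ζ) - 1) = -y² exp(-ζ) dT ζ   (`dT_y_mul`, `dT_congr` with `X_Btip`, `dT_exp`);    X Z dT B = (E/y²)(-y² dT ζ/E) = -dT ζ.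
-/
import Claimed.Agent.R324.Core.AP.Res.JetT

set_option autoImplicit false

namespace Claimed.Agent.R324.Core

open Set Filter Topology
open scoped ContDiff

noncomputable section

variable {t y : ℝ} {q : ℕ} {w z : ℝ → ℝ}

theorem ap_jg_ev (t : ℝ) (hy : 19 / 20 < y) : ∀ᶠ p : ℝ × ℝ in 𝓝 (t, y), psi1 p.2 = 1 := by
  have ho : IsOpen {p : ℝ × ℝ | (19 / 20 : ℝ) < p.2} := isOpen_lt continuous_const continuous_snd
  filter_upwards [ho.mem_nhds (show (t, y) ∈ {p : ℝ × ℝ | (19 / 20 : ℝ) < p.2} from hy)] with p hp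
  exact psi1_eq_one (le_of_lt hp)

theorem bgA_ev_B (q : ℝ) (w z : ℝ → ℝ) (t : ℝ) (hy : 19 / 20 < y) :
    (bgA q w z).B =ᶠ[𝓝 (t, y)] Btip q z := by
  filter_upwards [ap_jg_ev t hy] with p hp
  show psi1 p.2 * Btip q z p = Btip q z p
  rw [hp, one_mul]

theorem bgA_ev_w (q : ℝ) (w z : ℝ → ℝ) (t : ℝ) (hy : 19 / 20 < y) :
    (bgA q w z).w =ᶠ[𝓝 (t, y)] wtip q w := by
  filter_upwards [ap_jg_ev t hy] with p hp
  show psi1 p.2 * wtip q w p = wtip q w p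
  rw [hp, one_mul]

theorem ap_jg_X_pos (hy : y ∈ Ioo (19 / 20 : ℝ) 1) : 0 < Xf y := by
  obtain ⟨h1, h2⟩ := hy
  unfold Xf
  nlinarith

theorem jg_B (q : ℝ) (w z : ℝ → ℝ) (t : ℝ) (hy : y ∈ Ioo (19 / 20 : ℝ) 1) :
    (bgA q w z).B (t, y) = (y ^ 2 / Real.exp (zeF q z (t, y)) - 1) / Xf y := by
  have hX : Xf y ≠ 0 := (ap_jg_X_pos hy).ne'
  have h1 : (bgA q w z).B (t, y) = Btip q z (t, y) := (bgA_ev_B q w z t hy.1).eq_of_nhds
  have h2 : Xf y * Btip q z (t, y) = y ^ 2 * Real.exp (-zeF q z (t, y)) - 1 := X_Btip q z (t, y)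
  rw [h1, eq_div_iff hX, mul_comm, h2, Real.exp_neg, div_eq_mul_inv]

theorem jg_Z (q : ℝ) (w z : ℝ → ℝ) (t : ℝ) (hy : y ∈ Ioo (19 / 20 : ℝ) 1) :
    (bgA q w z).Z (t, y) = Real.exp (zeF q z (t, y)) / y ^ 2 := by
  have hX : Xf y ≠ 0 := (ap_jg_X_pos hy).ne'
  have hy0 : y ≠ 0 := by
    have := hy.1
    intro h0
    rw [h0] at this
    norm_num at this
  have hE : Real.exp (zeF q z (t, y)) ≠ 0 := (Real.exp_pos _).ne'
  show 1 / (1 + Xf y * (bgA q w z).B (t, y)) = _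
  rw [jg_B q w z t hy]
  field_simp
  ring

theorem BP.ap_sm_zeF (h : BP q w z) : Sm (zeF q z) :=
  (h.ts_zeF domOK_empty domN_empty (m := 0) (n := 0) (by norm_num)).sm

theorem BP.jg_dd (h : BP q w z) (ht : t < 0) (hy : y ∈ Ioo (19 / 20 : ℝ) 1) :
    (bgA q w z).dd (t, y) = (2 * y - y ^ 2 * dY (zeF q z) (t, y)) / Real.exp (zeF q z (t, y)) := by
  have hz : Sm (zeF q z) := h.ap_sm_zeF
  have hev : (fun p : ℝ × ℝ => Xf p.2 * (bgA q w z).B p)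
      =ᶠ[𝓝 (t, y)] (fun p : ℝ × ℝ => p.2 ^ 2 * Real.exp (-zeF q z p) - 1) := by
    filter_upwards [bgA_ev_B (q : ℝ) w z t hy.1] with p hp
    rw [hp]
    exact X_Btip q z p
  have h1 : (bgA q w z).dd (t, y)
      = dY (fun p : ℝ × ℝ => p.2 ^ 2 * Real.exp (-zeF q z p) - 1) (t, y) :=
    (evEq_dY hev).eq_of_nhds
  have hd : HasDerivAt (fun s : ℝ => s ^ 2 * Real.exp (-zeF q z (t, s)) - 1)
      ((2 * y) * Real.exp (-zeF q z (t, y))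
        + y ^ 2 * (Real.exp (-zeF q z (t, y)) * (-dY (zeF q z) (t, y)))) y := by
    have ha : HasDerivAt (fun s : ℝ => s ^ 2) (2 * y) y := by
      simpa using hasDerivAt_pow 2 y
    have hb := (hz.hasDerivAt_y ht y).neg.exp
    exact (ha.mul hb).sub_const 1
  rw [h1, dY_of_hasDerivAt hd, Real.exp_neg]
  have hE : Real.exp (zeF q z (t, y)) ≠ 0 := (Real.exp_pos _).ne'
  field_simp
  ring

theorem jg_w (q : ℝ) (w z : ℝ → ℝ) (t : ℝ) (hy : 19 / 20 < y) :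
    (bgA q w z).w (t, y) = wtip q w (t, y) :=
  (bgA_ev_w q w z t hy).eq_of_nhds

theorem jg_wp (q : ℝ) (w z : ℝ → ℝ) (t : ℝ) (hy : 19 / 20 < y) :
    (bgA q w z).wp (t, y) = dY (wtip q w) (t, y) :=
  (evEq_dY (bgA_ev_w q w z t hy)).eq_of_nhds

theorem jg_wpp (q : ℝ) (w z : ℝ → ℝ) (t : ℝ) (hy : 19 / 20 < y) :
    (bgA q w z).wpp (t, y) = dY (dY (wtip q w)) (t, y) :=
  (evEq_dY (evEq_dY (bgA_ev_w q w z t hy))).eq_of_nhds

theorem jg_dTw (q : ℝ) (w z : ℝ → ℝ) (t : ℝ) (hy : 19 / 20 < y) :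
    dT (bgA q w z).w (t, y) = dT (wtip q w) (t, y) :=
  (evEq_dT (bgA_ev_w q w z t hy)).eq_of_nhds

theorem BP.jg_dTB (h : BP q w z) (ht : t < 0) (hy : y ∈ Ioo (19 / 20 : ℝ) 1) :
    Xf y * (bgA q w z).Z (t, y) * dT (bgA q w z).B (t, y) = -dT (zeF q z) (t, y) := by
  have hz : Sm (zeF q z) := h.ap_sm_zeF
  have hB : Sm (Btip q z) := (h.ts_Btip domOK_empty domN_empty (m := 0) (n := 0) (by norm_num)).sm
  have hy0 : y ≠ 0 := by
    have := hy.1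
    intro h0
    rw [h0] at this
    norm_num at this
  have h1 : dT (bgA q w z).B (t, y) = dT (Btip q z) (t, y) :=
    (evEq_dT (bgA_ev_B (q : ℝ) w z t hy.1)).eq_of_nhds
  have h2 : Xf y * dT (Btip q z) (t, y) = dT (fun p : ℝ × ℝ => Xf p.2 * Btip q z p) (t, y) :=
    (dT_y_mul Xf hB ht y).symm
  have h3 : dT (fun p : ℝ × ℝ => Xf p.2 * Btip q z p) (t, y)
      = dT (fun p : ℝ × ℝ => p.2 ^ 2 * Real.exp (-zeF q z p) - 1) (t, y) :=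
    dT_congr (fun s _ => X_Btip q z (s, y)) ht
  have hd : HasDerivAt (fun s : ℝ => y ^ 2 * Real.exp (-zeF q z (s, y)) - 1)
      (y ^ 2 * (Real.exp (-zeF q z (t, y)) * (-dT (zeF q z) (t, y)))) t :=
    (((hz.hasDerivAt_t ht y).neg.exp).const_mul (y ^ 2)).sub_const 1
  have h4 : dT (fun p : ℝ × ℝ => p.2 ^ 2 * Real.exp (-zeF q z p) - 1) (t, y)
      = y ^ 2 * (Real.exp (-zeF q z (t, y)) * (-dT (zeF q z) (t, y))) := dT_of_hasDerivAt hd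
  have hE : Real.exp (zeF q z (t, y)) ≠ 0 := (Real.exp_pos _).ne'
  rw [h1, jg_Z (q : ℝ) w z t hy, mul_right_comm, h2, h3, h4, Real.exp_neg]
  field_simp

end

end Claimed.Agent.R324.Core
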