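/-
Row 324 (S0582), PDE core, module AP (architect helper263), residual (A8), file Res/JetV:  THE GAUGE FIELD  W = WA q w z  ON THE OPEN NORTHERN STRIP   t < 0,  19/20 < y < 1     (it is the field which makes E₂ = -GBF = 0).
      ζ = zeF q z,  E = exp ζ,  ζ1 = dY ζ,  ζ2 = dY (dY ζ),  w1 = dY w_tip,  w2 = dY (dY w_tip),  n = q-1,  X = Xf y ∈ (0,1),  Ξ = XiF q (t,y) > 0,  u = uWF, v = uZF.
      WA = exp ζ * ( psY1 y * (n * (uZ1 * Ph1 v / z(Ξ))) - psY2 y * (dY v + 2 dY u) )        (Core/AP/Defs.lean).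

* `dY_cmp`:    ∂_y F(Ξ) = F'(Ξ) (-2y/λ²);    X * that = -y (2 Ξ F'(Ξ)) = -y th F(Ξ)      (from `thF_cmp` (JetT) + `thF_apply`, ttF:  thF f = -X dY f/y;  or from `dY_atm` with s = 0).
* `WA_strip`:  for 19/20 < y < 1:    psY1 y = 1/y,  psY2 y = 1/(2y²)  (ψ₁ = 1);     X uZ1 = v,  v Ph1 v = 1 - exp(-v) (`ph1_mul`), so uZ1 Ph1 v = (1 - exp(-v))/X;     E = z(Ξ) exp v  (`zeF_prd`, `uZF_prd`, `Real.exp_add`, `Real.exp_log`, z > 0);
               ζ1 = ∂_y log z(Ξ) + dY v,   w1 = ∂_y w(Ξ) + dY u   (`dY_add`; ∂_y (2γ log(-t)) = 0;  use `dY_congr` with `zeF_prd`/definition of wtip),     X ∂_y log z(Ξ) = y J_a(Ξ),   X ∂_y w(Ξ) = -y th w(Ξ)   (`dY_cmp`, `th_logz`);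
               (Z1) (`prof_Z1`):  z (2 th w - J_a) = 2n(1-z).       Hence   -n(1-E)/(yX) - E (ζ1+2w1)/(2y²) = -n(1-E)/(yX) + E n (1-z)/(y X z) - E (dY v + 2 dY u)/(2y²) = (n E/(y X z)) (1 - z/E) - … = E (1/y) n (1 - exp(-v))/(X z) - E (dY v + 2 dY u)/(2y²).       (field_simp; then linear_combination with the relations.)
* `dY_WA_strip`:  by `WA_strip` the slice y' ↦ WA (t,y') equals  y' ↦ -n(1-exp ζ)/(y' X(y')) - exp ζ (ζ1 + 2 w1)/(2y'²)  on the open interval (19/20,1) ∋ y  (`Filter.EventuallyEq.deriv_eq`, `Ioo_mem_nhds`; dY f (t,y) = deriv (fun y' => f (t,y')) y by definition);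
               differentiate with HasDerivAt:   (exp ζ)' = E ζ1,   (y X)' = X - 2y²,   (ζ1 + 2 w1)' = ζ2 + 2 w2,   (y²)' = 2y      (`Sm.hasDerivAt_y` for ζ, dY ζ, dY w_tip; `HasDerivAt.exp, .mul, .div, .sub`; `hasDerivAt_Xf`).      Then field_simp; ring.
-/
import Claimed.Agent.R324.Core.AP.Res.JetT
import Claimed.Agent.R324.Core.AP.BgA3

set_option autoImplicit false

namespace Claimed.Agent.R324.Core

open Set Filter Topology
open scoped ContDiff

noncomputable section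

variable {t y : ℝ} {q : ℕ} {w z F : ℝ → ℝ}

theorem dY_cmp (q : ℝ) (hF : ContDiff ℝ ∞ F) (ht : t < 0) (y : ℝ) :
    Xf y * dY (fun p => F (XiF q p)) (t, y) = -y * th F (XiF q (t, y)) := by
  have hF1 : HasDerivAt F (deriv F (XiF q (t, y))) (XiF q (t, y)) :=
    ((hF.differentiable (by simp)) _).hasDerivAt
  have hX : HasDerivAt (fun z => XiF q (t, z)) (-2 * y / lam2 q t) y := by
    unfold XiF
    exact (hasDerivAt_Xf y).div_const (lam2 q t)
  have h1 : dY (fun p => F (XiF q p)) (t, y) = deriv F (XiF q (t, y)) * (-2 * y / lam2 q t) :=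
    dY_of_hasDerivAt (hF1.comp y hX)
  rw [h1]
  unfold th
  have e : XiF q (t, y) = Xf y / lam2 q t := rfl
  generalize deriv F (XiF q (t, y)) = dF
  rw [e]
  ring

theorem BP.ap_jv_sm_uZF (h : BP q w z) : Sm (uZF q z) := sm_Xf.mul h.ap_sm_uZ1

theorem BP.ap_jv_sm_zeF (h : BP q w z) : Sm (zeF q z) := sm_Xf.mul h.ap_sm_ze1

theorem BP.ap_jv_contDiff_logz (h : BP q w z) : ContDiff ℝ ∞ (fun x => Real.log (z x)) :=
  h.bohm.smz.log (fun x => (h.pos x).ne')

theorem BP.ap_jv_zeF_eq (h : BP q w z) (ht : t < 0) (y : ℝ) :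
    zeF q z (t, y) = Real.log (z (XiF q (t, y))) + uZF q z (t, y) := by
  rw [h.zeF_prd ht y, uZF_prd q z ht y]

theorem BP.ap_jv_dY_zeF (h : BP q w z) (ht : t < 0) (y : ℝ) :
    dY (zeF q z) (t, y) = dY (fun p => Real.log (z (XiF q p))) (t, y) + dY (uZF q z) (t, y) := by
  rw [← dY_add (sm_cmp q h.ap_jv_contDiff_logz) h.ap_jv_sm_uZF ht y]
  exact dY_congr (fun y' => h.ap_jv_zeF_eq ht y') y

theorem BP.ap_jv_dY_wtip (h : BP q w z) (ht : t < 0) (y : ℝ) :
    dY (wtip q w) (t, y) = dY (fun p => w (XiF q p)) (t, y) + dY (uWF q w) (t, y) := by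
  have hA : Sm (fun p : ℝ × ℝ => 2 * gaF q * Real.log (-p.1)) := ap_sm_logLam.const_mul (2 * gaF q)
  have hB : Sm (fun p : ℝ × ℝ => w (XiF q p)) := sm_cmp q h.bohm.smw
  have e0 : dY (wtip q w) (t, y) = dY (fun p : ℝ × ℝ => 2 * gaF q * Real.log (-p.1)) (t, y)
      + dY (fun p : ℝ × ℝ => w (XiF q p)) (t, y) + dY (uWF q w) (t, y) := by
    rw [← dY_add hA hB ht y]
    exact dY_add (hA.add hB) h.ap_sm_uWF ht y
  rw [e0, dY_of_t (fun s => 2 * gaF q * Real.log (-s)) (t, y), zero_add]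

theorem BP.WA_strip (h : BP q w z) (ht : t < 0) (hy : y ∈ Ioo (19 / 20 : ℝ) 1) :
    WA q w z (t, y) = -((q : ℝ) - 1) * (1 - Real.exp (zeF q z (t, y))) / (y * Xf y)
      - Real.exp (zeF q z (t, y)) * (dY (zeF q z) (t, y) + 2 * dY (wtip q w) (t, y)) / (2 * y ^ 2) := by
  obtain ⟨hy1, hy2⟩ := hy
  have hy0 : 0 < y := by linarith
  have hX : 0 < Xf y := by unfold Xf; nlinarith
  have hΞ : 0 < XiF q (t, y) := div_pos hX (lam2_pos (q : ℝ) ht)
  have hz := h.pos (XiF q (t, y))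
  have r1 := dY_cmp (q : ℝ) h.ap_jv_contDiff_logz ht y
  rw [h.th_logz] at r1
  have r2 := dY_cmp (q : ℝ) h.bohm.smw ht y
  have r3 := h.prof_Z1 hΞ.le
  have r4 : Real.exp (zeF q z (t, y)) = z (XiF q (t, y)) * Real.exp (uZF q z (t, y)) := by
    rw [h.ap_jv_zeF_eq ht y, Real.exp_add, Real.exp_log hz]
  have r5 := ph1_mul (uZF q z (t, y))
  have r6 : uZF q z (t, y) = Xf y * uZ1 q z (t, y) := rfl
  have r7 : Real.exp (-uZF q z (t, y)) = (Real.exp (uZF q z (t, y)))⁻¹ := Real.exp_neg _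
  have hE := Real.exp_pos (uZF q z (t, y))
  have p1 : psY1 y = 1 / y := by unfold psY1; rw [psi1_eq_one hy1.le]
  have p2 : psY2 y = 1 / (2 * y ^ 2) := by unfold psY2; rw [psi1_eq_one hy1.le]
  rw [h.ap_jv_dY_zeF ht y, h.ap_jv_dY_wtip ht y, r4]
  unfold WA
  simp only []
  rw [p1, p2, r4]
  rw [r7] at r5
  generalize dY (fun p => Real.log (z (XiF q p))) (t, y) = a at *
  generalize dY (fun p => w (XiF q p)) (t, y) = b at *
  generalize dY (uZF q z) (t, y) = dv at *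
  generalize dY (uWF q w) (t, y) = du at *
  generalize Ph1 (uZF q z (t, y)) = p at *
  generalize Real.exp (uZF q z (t, y)) = Ev at *
  rw [r6] at r5
  generalize uZ1 q z (t, y) = u1 at *
  generalize bJa z (XiF q (t, y)) = Ja at *
  generalize th w (XiF q (t, y)) = Qw at *
  generalize z (XiF q (t, y)) = zz at *
  generalize Xf y = X at *
  have ea : a = y * Ja / X := by field_simp; linarith
  have eb : b = -y * Qw / X := by field_simp; linarith
  have eJ : Ja = (-2 * ((q : ℝ) - 1) * (1 - zz) + 2 * zz * Qw) / zz := by field_simp; linarith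
  have ep : u1 * p = (1 - Ev⁻¹) / X := by field_simp; field_simp at r5; linarith
  have ep' : u1 * p / zz = (1 - Ev⁻¹) / X / zz := by rw [ep]
  rw [ep', ea, eb, eJ]
  field_simp
  ring

theorem BP.dY_WA_strip (h : BP q w z) (ht : t < 0) (hy : y ∈ Ioo (19 / 20 : ℝ) 1) :
    dY (WA q w z) (t, y)
      = ((q : ℝ) - 1) * Real.exp (zeF q z (t, y)) * dY (zeF q z) (t, y) / (y * Xf y)
        + ((q : ℝ) - 1) * (1 - Real.exp (zeF q z (t, y))) * (Xf y - 2 * y ^ 2) / (y * Xf y) ^ 2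
        - Real.exp (zeF q z (t, y)) * dY (zeF q z) (t, y)
            * (dY (zeF q z) (t, y) + 2 * dY (wtip q w) (t, y)) / (2 * y ^ 2)
        - Real.exp (zeF q z (t, y)) * (dY (dY (zeF q z)) (t, y) + 2 * dY (dY (wtip q w)) (t, y)) / (2 * y ^ 2)
        + Real.exp (zeF q z (t, y)) * (dY (zeF q z) (t, y) + 2 * dY (wtip q w) (t, y)) / y ^ 3 := by
  have hy' := hy
  obtain ⟨hy1, hy2⟩ := hy'
  have hy0 : 0 < y := by linarith
  have hX : 0 < Xf y := by unfold Xf; nlinarith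
  have hev : (fun y' => WA q w z (t, y')) =ᶠ[𝓝 y] fun y' =>
      -((q : ℝ) - 1) * (1 - Real.exp (zeF q z (t, y'))) / (y' * Xf y')
      - Real.exp (zeF q z (t, y')) * (dY (zeF q z) (t, y') + 2 * dY (wtip q w) (t, y')) / (2 * y' ^ 2) := by
    filter_upwards [Ioo_mem_nhds hy1 hy2] with y' hy'
    exact h.WA_strip ht hy'
  have hζ := h.ap_jv_sm_zeF.hasDerivAt_y ht y
  have hζ1 := h.ap_jv_sm_zeF.dY.hasDerivAt_y ht y
  have hw1 := h.sm_wtip.dY.hasDerivAt_y ht y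
  have hE := hζ.exp
  have hXf := hasDerivAt_Xf y
  have hid := hasDerivAt_id' y
  have t1 := ((hE.const_sub 1).const_mul (-((q : ℝ) - 1))).div (hid.mul hXf) (mul_pos hy0 hX).ne'
  have t2 := (hE.mul (hζ1.add (hw1.const_mul 2))).div ((hid.pow 2).const_mul 2)
    (by positivity : (2 : ℝ) * y ^ 2 ≠ 0)
  have t3 := t1.sub t2
  have t4 := (t3.congr_of_eventuallyEq hev)
  rw [dY_of_hasDerivAt t4]
  clear t4 t3 t2 t1 hev hE hζ hζ1 hw1 hXf
  simp only [Pi.mul_apply, Pi.add_apply, Pi.pow_apply]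
  generalize dY (dY (zeF q z)) (t, y) = ζ2
  generalize dY (dY (wtip q w)) (t, y) = w2
  generalize dY (zeF q z) (t, y) = ζ1
  generalize dY (wtip q w) (t, y) = w1
  generalize Real.exp (zeF q z (t, y)) = E
  generalize Xf y = X at *
  field_simp
  ring

end

end Claimed.Agent.R324.Core
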