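/-
Row 324 (S0582), PDE core, module AP (architect helper263), residual (A8), file Res/IdG:   GBF, GCF, GAF OF  g = bgA q w z  ON THE OPEN NORTHERN STRIP (t < 0, 19/20 < y < 1) IN th-FORM.
      ζ = zeF q z,  E = exp ζ,  n = q-1,  X = Xf y ∈ (0,1),  y ≠ 0.        thF f = ttF f/y = -X ∂_y f/y   (PR/Germ.lean).          GAF, GBF, GCF: Core/Defs.lean.
      Jets of g: Res/JetG.lean (`jg_B, jg_Z, jg_dd, jg_w, jg_wp, jg_wpp`), Res/JetV.lean (`WA_strip, dY_WA_strip`; (bgA q w z).W = WA q w z by rfl).       Pure algebra: Res/Alg.lean (`ap_alg_gauge_A/B/C`).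

* `thF_jet`:   `thF_apply`, unfold ttF.
* `thF2_jet`:  `thF_thF` (Germ):  thF (thF f) = ttF (ttF f)/y² + X ttF f/y³;    ttF f = -X ∂_y f,    ttF (ttF f) (t,y) = -X ∂_y (-X ∂_y f) = -X (2y ∂_y f - X ∂_y² f) = X² ∂_y² f - 2yX ∂_y f     (`dY_mul`, `dY_neg`/`dY_Xf`, `sm_Xf`, `Sm.dY`).
* `resN_B`:    unfold GBF;  rewrite the jets (jg_B, jg_Z, jg_dd, jg_wp, WA_strip);  `ap_alg_gauge_B` with E = exp ζ ≠ 0, X = Xf y = 1 - y² (`Xf`), X ≠ 0, y ≠ 0.
* `resN_C`:    unfold GCF DD Bg.ap;  (dY (dY g.w) = g.wpp, dY g.w = g.wp by rfl);   jets;  `ap_alg_gauge_C`;  then `thF_jet`, `thF2_jet` (for w_tip, Sm by `sm_wtip`) to recognise the right side.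
* `resN_A`:    unfold GAF DD Bg.ap;  jets + `dY_WA_strip`;  `ap_alg_gauge_A`;  `thF_jet`, `thF2_jet` for ζ and w_tip.
-/
import Claimed.Agent.R324.Core.AP.Res.JetG
import Claimed.Agent.R324.Core.AP.Res.JetV

set_option autoImplicit false

namespace Claimed.Agent.R324.Core

open Set Filter Topology
open scoped ContDiff

noncomputable section

variable {t y : ℝ} {f : Fn} {q : ℕ} {w z : ℝ → ℝ}

theorem thF_jet (f : Fn) (t y : ℝ) : thF f (t, y) = -Xf y * dY f (t, y) / y := by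
  rw [thF_apply]
  rfl

theorem thF2_jet (hf : Sm f) (ht : t < 0) (hy : y ≠ 0) :
    thF (thF f) (t, y) = (Xf y ^ 2 * dY (dY f) (t, y) - 2 * y * Xf y * dY f (t, y)) / y ^ 2
      - Xf y ^ 2 * dY f (t, y) / y ^ 3 := by
  have h1 : HasDerivAt (fun z => ttF f (t, z))
      (-(-2 * y) * dY f (t, y) + -(Xf y) * dY (dY f) (t, y)) y :=
    ((hasDerivAt_Xf y).neg).mul (hf.dY.hasDerivAt_y ht y)
  have h2 : ttF (ttF f) (t, y) = -(Xf y) * (-(-2 * y) * dY f (t, y) + -(Xf y) * dY (dY f) (t, y)) := by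
    rw [ttF_apply, dY_of_hasDerivAt h1]
  have h3 : ttF f (t, y) = -(Xf y) * dY f (t, y) := rfl
  rw [thF_thF hf ht hy, h2, h3]
  field_simp
  ring

theorem BP.resN_B (h : BP q w z) (ht : t < 0) (hy : y ∈ Ioo (19 / 20 : ℝ) 1) :
    GBF q (bgA q w z) (t, y) = 0 := by
  have hy0 : y ≠ 0 := by have := hy.1; intro h0; rw [h0] at this; norm_num at this
  have hX : Xf y ≠ 0 := by
    have h1 := hy.1; have h2 := hy.2
    unfold Xf; nlinarith
  have hW : (bgA q w z).W (t, y) = WA q w z (t, y) := rfl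
  simp only [GBF]
  rw [jg_B q w z t hy, jg_Z q w z t hy, h.jg_dd ht hy, jg_wp q w z t hy.1, hW]
  exact ap_alg_gauge_B q y (Xf y) (Real.exp (zeF q z (t, y))) (dY (zeF q z) (t, y))
    (dY (wtip q w) (t, y)) (WA q w z (t, y)) _ hy0 hX (Real.exp_ne_zero _) rfl rfl (h.WA_strip ht hy)

theorem BP.resN_C (h : BP q w z) (ht : t < 0) (hy : y ∈ Ioo (19 / 20 : ℝ) 1) :
    Xf y * GCF q (bgA q w z) (t, y)
      = Real.exp (zeF q z (t, y)) * thF (thF (wtip q w)) (t, y) + ((q : ℝ) - 1) * thF (wtip q w) (t, y)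
        - 2 * Xf y * Real.exp (-wtip q w (t, y)) := by
  have hy0 : y ≠ 0 := by have := hy.1; intro h0; rw [h0] at this; norm_num at this
  have hX : Xf y ≠ 0 := by
    have h1 := hy.1; have h2 := hy.2
    unfold Xf; nlinarith
  have hW : (bgA q w z).W (t, y) = WA q w z (t, y) := rfl
  have h1 : dY (dY (bgA q w z).w) (t, y) = dY (dY (wtip q w)) (t, y) := jg_wpp q w z t hy.1
  have h2 : dY (bgA q w z).w (t, y) = dY (wtip q w) (t, y) := jg_wp q w z t hy.1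
  simp only [GCF, DD, Bg.ap]
  rw [h1, h2, jg_Z q w z t hy, h.jg_dd ht hy, jg_wp q w z t hy.1, jg_w q w z t hy.1, hW,
    thF2_jet h.sm_wtip ht hy0, thF_jet]
  exact ap_alg_gauge_C q y (Xf y) (Real.exp (zeF q z (t, y))) (dY (zeF q z) (t, y))
    (dY (wtip q w) (t, y)) (dY (dY (wtip q w)) (t, y)) _ (WA q w z (t, y)) hy0 hX
    (Real.exp_ne_zero _) rfl (h.WA_strip ht hy)

theorem BP.resN_A (h : BP q w z) (ht : t < 0) (hy : y ∈ Ioo (19 / 20 : ℝ) 1) :
    Xf y * GAF q (bgA q w z) (t, y)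
      = -Real.exp (zeF q z (t, y)) * (thF (thF (zeF q z)) (t, y) + thF (zeF q z) (t, y) ^ 2 / 2
          - 2 * thF (zeF q z) (t, y) - thF (wtip q w) (t, y) ^ 2)
        - ((q : ℝ) - 1) * thF (zeF q z) (t, y) - 2 * ((q : ℝ) - 1) * (1 - Real.exp (zeF q z (t, y))) := by
  have hy0 : y ≠ 0 := by have := hy.1; intro h0; rw [h0] at this; norm_num at this
  have hX : Xf y ≠ 0 := by
    have h1 := hy.1; have h2 := hy.2
    unfold Xf; nlinarith
  have hW : (bgA q w z).W = WA q w z := rfl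
  have h1 : dY (dY (bgA q w z).w) (t, y) = dY (dY (wtip q w)) (t, y) := jg_wpp q w z t hy.1
  have h2 : dY (bgA q w z).w (t, y) = dY (wtip q w) (t, y) := jg_wp q w z t hy.1
  have hsz : Sm (zeF q z) := (h.ts_zeF domOK_empty domN_empty (m := 0) (n := 0) (by norm_num)).sm
  simp only [GAF, DD, Bg.ap]
  rw [h1, h2, jg_Z q w z t hy, h.jg_dd ht hy, jg_wp q w z t hy.1, hW,
    thF2_jet hsz ht hy0, thF_jet, thF_jet]
  exact ap_alg_gauge_A q y (Xf y) (Real.exp (zeF q z (t, y))) (dY (zeF q z) (t, y))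
    (dY (dY (zeF q z)) (t, y)) (dY (wtip q w) (t, y)) (dY (dY (wtip q w)) (t, y)) (WA q w z (t, y))
    (dY (WA q w z) (t, y)) hy0 hX (Real.exp_ne_zero _) rfl (h.WA_strip ht hy) (h.dY_WA_strip ht hy)

end

end Claimed.Agent.R324.Core
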