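/-
Row 324 (S0582), PDE core, module AP (architect helper263), residual (A8), file Res/JetW (wtip):  THE th-JETS AND THE TIME DERIVATIVE OF  w_tip = wtip q w  AND  ζ = zeF q z.
      Ξ = XiF q (t,y),  Y = YF (t,y),   J = bJ w,  J_a = bJa z,   A = polA (aW q),  th A = polA (cTh (aW q)),  th² A = polA (cTh (cTh (aW q)));   the same with aZ.
      Rules: Res/Prd.lean (`thF_prd, thF2_prd, dT_prd, sm_prd`), Res/Prd2.lean (`thF_add, thF2_add, thF_of_t, thF2_of_t, th_polA, hPol_polA, polA_contDiff`), Res/Prof.lean (`th_logz, th_th_logz`).     Definitions: Core/AP/Defs.lean.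
      To transport a jet along an identity f = g which holds for all t < 0 and all y:   dY_congr, dT_congr (PR/Sm.lean), or `thF_congr`, `thF2_congr` below.

      General lemmas: Res/JetT.lean (`thF_congr, thF2_congr, thF_cmp, thF2_cmp, dT_cmp, uWF_prd, uZF_prd, zeF_prd`).
* `thF_wtip` …:  wtip = 2γ log(-t) + w(Ξ) + uWF;    sum rules;   thF (2γ log(-t)) = 0;   thF (w(Ξ)) = (th w)(Ξ);   thF uWF = (th J)(Ξ) A(Y) + J(Ξ) (th A)(Y)  (`thF_congr` with `uWF_prd`, `thF_prd`, `th_polA`).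
     `dTL_wtip`:   Λ ∂_t (2γ log(-t)) = Λ 2γ/t = -2γ;    Λ ∂_t w(Ξ) = γ (th w)(Ξ);   -2γ + γ th w = -γ J.       (or from `BP.dT_wtip`, TipG.)
-/
import Claimed.Agent.R324.Core.AP.Res.JetT

set_option autoImplicit false

namespace Claimed.Agent.R324.Core

open Set Filter Topology
open scoped ContDiff

noncomputable section

variable {t y : ℝ} {q : ℕ} {w z : ℝ → ℝ}

theorem ap_jw_sm_log (c : ℝ) : Sm (fun p : ℝ × ℝ => c * Real.log (-p.1)) :=
  (Sm.log sm_fst.neg (fun t ht _ => by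
    have : 0 < -t := by linarith
    exact this.ne')).const_mul c

theorem ap_jw_sm_cmp (q : ℝ) {F : ℝ → ℝ} (hF : ContDiff ℝ ∞ F) : Sm (fun p => F (XiF q p)) :=
  Sm.comp hF (sm_XiF q)

theorem ap_jw_sm_uWF (h : BP q w z) : Sm (uWF q w) :=
  (sm_prd q h.bohm.contDiff_bJ_sc3 (polA_contDiff (aW q))).congr
    (fun _ ht y => uWF_prd q w ht y)

theorem ap_jw_th_bJ (w : ℝ → ℝ) (x : ℝ) : th (bJ w) x = -th (th w) x := by
  have e : bJ w = fun x => 2 - th w x := rfl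
  have e1 : th (bJ w) x = 2 * x * deriv (bJ w) x := rfl
  have e2 : th (th w) x = 2 * x * deriv (th w) x := rfl
  rw [e1, e2, e, deriv_const_sub]
  ring

theorem BP.thF_wtip (h : BP q w z) (ht : t < 0) (hy : y ≠ 0) :
    thF (wtip q w) (t, y) = th w (XiF q (t, y))
      + (th (bJ w) (XiF q (t, y)) * polA (aW q) (YF (t, y))
          + bJ w (XiF q (t, y)) * polA (cTh (aW q)) (YF (t, y))) := by
  have hA : Sm (fun p : ℝ × ℝ => 2 * gaF q * Real.log (-p.1)) := ap_jw_sm_log _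
  have hB : Sm (fun p : ℝ × ℝ => w (XiF q p)) := ap_jw_sm_cmp q h.bohm.smw
  have hC : Sm (uWF q w) := ap_jw_sm_uWF h
  have e0 : thF (wtip q w) (t, y) = thF (fun p : ℝ × ℝ => 2 * gaF q * Real.log (-p.1)) (t, y)
      + thF (fun p : ℝ × ℝ => w (XiF q p)) (t, y) + thF (uWF q w) (t, y) := by
    rw [← thF_add hA hB ht y]
    exact thF_add (hA.add hB) hC ht y
  have e1 : thF (fun p : ℝ × ℝ => 2 * gaF q * Real.log (-p.1)) (t, y) = 0 :=
    thF_of_t (fun s => 2 * gaF q * Real.log (-s)) (t, y)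
  have e2 : thF (fun p : ℝ × ℝ => w (XiF q p)) (t, y) = th w (XiF q (t, y)) :=
    thF_cmp q h.bohm.smw ht hy
  have e3 : thF (uWF q w) (t, y) = thF (prd q (bJ w) (polA (aW q))) (t, y) :=
    thF_congr (fun y => uWF_prd q w ht y) y
  rw [e0, e1, e2, e3, thF_prd q h.bohm.contDiff_bJ_sc3 (polA_contDiff (aW q)) ht hy, th_polA]
  unfold prd
  ring

theorem BP.thF2_wtip (h : BP q w z) (ht : t < 0) (hy : y ≠ 0) :
    thF (thF (wtip q w)) (t, y) = -th (bJ w) (XiF q (t, y))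
      + (th (th (bJ w)) (XiF q (t, y)) * polA (aW q) (YF (t, y))
          + 2 * th (bJ w) (XiF q (t, y)) * polA (cTh (aW q)) (YF (t, y))
          + bJ w (XiF q (t, y)) * polA (cTh (cTh (aW q))) (YF (t, y))) := by
  have hA : Sm (fun p : ℝ × ℝ => 2 * gaF q * Real.log (-p.1)) := ap_jw_sm_log _
  have hB : Sm (fun p : ℝ × ℝ => w (XiF q p)) := ap_jw_sm_cmp q h.bohm.smw
  have hC : Sm (uWF q w) := ap_jw_sm_uWF h
  have e0 : thF (thF (wtip q w)) (t, y)
      = thF (thF (fun p : ℝ × ℝ => 2 * gaF q * Real.log (-p.1))) (t, y)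
      + thF (thF (fun p : ℝ × ℝ => w (XiF q p))) (t, y) + thF (thF (uWF q w)) (t, y) := by
    rw [← thF2_add hA hB ht hy]
    exact thF2_add (hA.add hB) hC ht hy
  have e1 : thF (thF (fun p : ℝ × ℝ => 2 * gaF q * Real.log (-p.1))) (t, y) = 0 :=
    thF2_of_t (fun s => 2 * gaF q * Real.log (-s)) (t, y)
  have e2 : thF (thF (fun p : ℝ × ℝ => w (XiF q p))) (t, y) = th (th w) (XiF q (t, y)) :=
    thF2_cmp q h.bohm.smw ht hy
  have e3 : thF (thF (uWF q w)) (t, y) = thF (thF (prd q (bJ w) (polA (aW q)))) (t, y) :=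
    thF2_congr (fun y => uWF_prd q w ht y) y
  have e4 : th (th w) (XiF q (t, y)) = -th (bJ w) (XiF q (t, y)) := by
    rw [ap_jw_th_bJ w, neg_neg]
  rw [e0, e1, e2, e3, thF2_prd q h.bohm.contDiff_bJ_sc3 (polA_contDiff (aW q)) ht hy, th_polA,
    th_polA, e4]
  unfold prd
  ring

theorem BP.dTL_wtip (h : BP q w z) (ht : t < 0) (y : ℝ) :
    (-t) * dT (wtip q w) (t, y) = -gaF q * bJ w (XiF q (t, y))
      + gaF q * th (bJ w) (XiF q (t, y)) * polA (aW q) (YF (t, y))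
      + bJ w (XiF q (t, y)) * polA (cTh (aW q)) (YF (t, y)) / 2 := by
  have hl : 0 < -t := by linarith
  have hA : Sm (fun p : ℝ × ℝ => 2 * gaF q * Real.log (-p.1)) := ap_jw_sm_log _
  have hB : Sm (fun p : ℝ × ℝ => w (XiF q p)) := ap_jw_sm_cmp q h.bohm.smw
  have hC : Sm (uWF q w) := ap_jw_sm_uWF h
  have e0 : dT (wtip q w) (t, y) = dT (fun p : ℝ × ℝ => 2 * gaF q * Real.log (-p.1)) (t, y)
      + dT (fun p : ℝ × ℝ => w (XiF q p)) (t, y) + dT (uWF q w) (t, y) := by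
    rw [← dT_add hA hB ht y]
    exact dT_add (hA.add hB) hC ht y
  have e1 : dT (fun p : ℝ × ℝ => 2 * gaF q * Real.log (-p.1)) (t, y)
      = 2 * gaF q * (-1 / -t) := by
    apply dT_of_hasDerivAt
    exact (((hasDerivAt_id t).neg).log hl.ne').const_mul (2 * gaF q)
  have e2 : (-t) * dT (fun p : ℝ × ℝ => w (XiF q p)) (t, y) = gaF q * th w (XiF q (t, y)) :=
    dT_cmp q h.bohm.smw ht y
  have e3 : dT (uWF q w) (t, y) = dT (prd q (bJ w) (polA (aW q))) (t, y) :=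
    dT_congr (fun s hs => uWF_prd q w hs y) ht
  have e4 := dT_prd q h.bohm.contDiff_bJ_sc3 (polA_contDiff (aW q)) ht y
  rw [th_polA] at e4
  have e5 : (-t) * (2 * gaF q * (-1 / -t)) = -2 * gaF q := by
    have ht0 : t ≠ 0 := ht.ne
    field_simp
  rw [e0, e1, e3, mul_add, mul_add, e2, e4, e5]
  unfold prd bJ
  ring

end

end Claimed.Agent.R324.Core
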