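/-
Row 324 (S0582), PDE core, module AP (architect helper263), residual (A8), file Res/JetZ (zeF):  THE th-JETS AND THE TIME DERIVATIVE OF  w_tip = wtip q w  AND  ζ = zeF q z.
      Ξ = XiF q (t,y),  Y = YF (t,y),   J = bJ w,  J_a = bJa z,   A = polA (aW q),  th A = polA (cTh (aW q)),  th² A = polA (cTh (cTh (aW q)));   the same with aZ.
      Rules: Res/Prd.lean (`thF_prd, thF2_prd, dT_prd, sm_prd`), Res/Prd2.lean (`thF_add, thF2_add, thF_of_t, thF2_of_t, th_polA, hPol_polA, polA_contDiff`), Res/Prof.lean (`th_logz, th_th_logz`).     Definitions: Core/AP/Defs.lean.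
      To transport a jet along an identity f = g which holds for all t < 0 and all y:   dY_congr, dT_congr (PR/Sm.lean), or `thF_congr`, `thF2_congr` below.

      General lemmas: Res/JetT.lean (`thF_congr, thF2_congr, thF_cmp, thF2_cmp, dT_cmp, uWF_prd, uZF_prd, zeF_prd`).
* `thF_zeF` …:   th (log z) = -J_a,  th² (log z) = -th J_a.
     zeF = log z(Ξ) + J_a(Ξ) A_z(Y) for all t < 0, y (`zeF_prd`);  log ∘ z is smooth (`ContDiff.log h.bohm.smz`, z > 0);  J_a smooth: `BP.ap_contDiff_bJa` (TipB);   sum rules `thF_add`, `thF2_add`, `dT_add`.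
-/
import Claimed.Agent.R324.Core.AP.Res.JetT

set_option autoImplicit false

namespace Claimed.Agent.R324.Core

open Set Filter Topology
open scoped ContDiff

noncomputable section

variable {t y : ℝ} {q : ℕ} {w z : ℝ → ℝ}

theorem BP.ap_contDiff_logz (h : BP q w z) : ContDiff ℝ ∞ (fun x => Real.log (z x)) :=
  h.bohm.smz.log fun x => (h.pos x).ne'

theorem BP.ap_sm_logz (h : BP q w z) : Sm (fun p => Real.log (z (XiF q p))) :=
  Sm.comp (φ := fun x => Real.log (z x)) h.ap_contDiff_logz (sm_XiF q)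

theorem BP.ap_sm_prdZ (h : BP q w z) : Sm (prd q (bJa z) (polA (aZ q))) :=
  sm_prd q h.ap_contDiff_bJa (polA_contDiff _)

theorem BP.thF_zeF (h : BP q w z) (ht : t < 0) (hy : y ≠ 0) :
    thF (zeF q z) (t, y) = -bJa z (XiF q (t, y))
      + (th (bJa z) (XiF q (t, y)) * polA (aZ q) (YF (t, y))
          + bJa z (XiF q (t, y)) * polA (cTh (aZ q)) (YF (t, y))) := by
  have e0 : thF (zeF q z) (t, y)
      = thF (fun p => Real.log (z (XiF q p)) + prd q (bJa z) (polA (aZ q)) p) (t, y) :=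
    thF_congr (fun y => h.zeF_prd ht y) y
  have e1 : thF (fun p => Real.log (z (XiF q p))) (t, y) = -bJa z (XiF q (t, y)) := by
    have := thF_cmp q h.ap_contDiff_logz ht hy
    rw [h.th_logz] at this
    exact this
  rw [e0, thF_add h.ap_sm_logz h.ap_sm_prdZ ht y, e1,
    thF_prd q h.ap_contDiff_bJa (polA_contDiff _) ht hy, th_polA]
  rfl

theorem BP.thF2_zeF (h : BP q w z) (ht : t < 0) (hy : y ≠ 0) :
    thF (thF (zeF q z)) (t, y) = -th (bJa z) (XiF q (t, y))
      + (th (th (bJa z)) (XiF q (t, y)) * polA (aZ q) (YF (t, y))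
          + 2 * th (bJa z) (XiF q (t, y)) * polA (cTh (aZ q)) (YF (t, y))
          + bJa z (XiF q (t, y)) * polA (cTh (cTh (aZ q))) (YF (t, y))) := by
  have e0 : thF (thF (zeF q z)) (t, y)
      = thF (thF (fun p => Real.log (z (XiF q p)) + prd q (bJa z) (polA (aZ q)) p)) (t, y) :=
    thF2_congr (fun y => h.zeF_prd ht y) y
  have e1 : thF (thF (fun p => Real.log (z (XiF q p)))) (t, y) = -th (bJa z) (XiF q (t, y)) := by
    have := thF2_cmp q h.ap_contDiff_logz ht hy
    rw [h.th_th_logz] at this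
    exact this
  rw [e0, thF2_add h.ap_sm_logz h.ap_sm_prdZ ht hy, e1,
    thF2_prd q h.ap_contDiff_bJa (polA_contDiff _) ht hy, th_polA, th_polA]
  unfold prd
  ring

theorem BP.dTL_zeF (h : BP q w z) (ht : t < 0) (y : ℝ) :
    (-t) * dT (zeF q z) (t, y) = -gaF q * bJa z (XiF q (t, y))
      + gaF q * th (bJa z) (XiF q (t, y)) * polA (aZ q) (YF (t, y))
      + bJa z (XiF q (t, y)) * polA (cTh (aZ q)) (YF (t, y)) / 2 := by
  have e0 : dT (zeF q z) (t, y)
      = dT (fun p => Real.log (z (XiF q p)) + prd q (bJa z) (polA (aZ q)) p) (t, y) :=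
    dT_congr (fun s hs => h.zeF_prd hs y) ht
  have e1 : (-t) * dT (fun p => Real.log (z (XiF q p))) (t, y) = gaF q * -bJa z (XiF q (t, y)) := by
    have := dT_cmp q h.ap_contDiff_logz ht y
    rw [h.th_logz] at this
    exact this
  rw [e0, dT_add h.ap_sm_logz h.ap_sm_prdZ ht y, mul_add, e1,
    dT_prd q h.ap_contDiff_bJa (polA_contDiff _) ht y, th_polA]
  unfold prd
  ring

end

end Claimed.Agent.R324.Core
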