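/-
Row 324 (S0582), PDE core, module AP (architect helper263), residual (A8), file Res/Rec:  THE HEAT POLYNOMIALS SOLVE THE LINEARISED EQUATIONS (polynomial identities in Y).
      A_w = polA (aW q),  th A_w = polA (cTh (aW q)),  th² A_w = polA (cTh (cTh (aW q)));   the same with aZ.        polA c Y = Σ_{j<8} c (j+1) Y^(j+1),  cTh c j = 2 j c j   (Res/Prd.lean);   aW, aZ, pwF, pzF: Core/AP/Defs.lean (`aW_zero, aW_succ, aZ_zero, aZ_succ`).
      α = alF q = bAl q ∈ (2,3) (`bAl_bounds`),  γ = gaF q = 8/α,  z₀ = z0F q = (q-1)/(q+1) > 0 (`z0F_pos`, PR/Cone.lean),  κ_z = bKz q > 0,  m = q+1.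

* `pwF_pos`:  s > -1:  s² + m s + 2m = s² + m (s+2) > 0.             `pzF_ne`:  (s-2)(s+m) ≠ 0 for s = 2j+2-α:  s - 2 = 2j - α ≠ 0 because α ∈ (2,3) is not an even integer (j = 0: -α < 0;  j = 1: 2-α < 0;  j ≥ 2: 2j-α ≥ 4-α > 0),   s + m > 0.
* `bKz_pos`:  unfold bKz; all factors positive (α+2 > 0, q+1-α > 0).
* `aW_rel`:   from `aW_succ`, multiply by the denominator (≠ 0).            `aZ_rel`: the same from `aZ_succ`.
* `recW`:     coefficient of Y^(j+1), j = 0..7:     left:  j = 0: -γ = (0-8) a_0  (a_0 = 1/α, γ = 8/α);   j ≥ 1:  (-8 + (2j)/2) a_j = (j-8) a_j;    Y^9:  (8-8) a_8 = 0.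
                                                    right: z₀ a_{j+1} (4(j+1)² + (m-2α) 2(j+1) + α² - mα + 2m) = z₀ a_{j+1} p_w(2j+2-α).
              Proof:  simp only [polA, cTh, Finset.sum_range_succ, Finset.sum_range_zero]; push_cast;   have r_j := aW_rel hq j for j = 0..7 (unfold pwF, push_cast/norm_num in them);   then     linear_combination  Σ_j Y^(j+1) * r_j  (+ a multiple of  γ α = 8 / a_0 α = 1).
* `recZ`:     the same with  p_z  and the coupling  (4 z₀²/κ_z)(2j+2-α) a_{j+1}.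
-/
import Claimed.Agent.R324.Core.AP.Res.Prd
import Claimed.Agent.R324.Core.PR.Cone

set_option autoImplicit false

namespace Claimed.Agent.R324.Core

open Set Filter Topology
open scoped ContDiff

noncomputable section

variable {q : ℝ}

theorem pwF_pos (hq : 100 ≤ q) {s : ℝ} (hs : -1 < s) : 0 < pwF q s := by
  unfold pwF
  have h1 : 0 < (q + 1) * (s + 2) := mul_pos (by linarith) (by linarith)
  nlinarith [sq_nonneg s]

theorem pzF_ne (hq : 100 ≤ q) (j : ℕ) : pzF q (2 * j + 2 - alF q) ≠ 0 := by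
  obtain ⟨h2, h3⟩ := bAl_bounds hq
  unfold pzF alF
  have hj0 : (0 : ℝ) ≤ (j : ℝ) := Nat.cast_nonneg j
  refine mul_ne_zero ?_ ?_
  · rcases j with _ | _ | j
    · have : (2 * ((0 : ℕ) : ℝ) + 2 - bAl q - 2) < 0 := by push_cast; linarith
      exact this.ne
    · have : (2 * ((0 + 1 : ℕ) : ℝ) + 2 - bAl q - 2) < 0 := by push_cast; linarith
      exact this.ne
    · have hj : (0 : ℝ) ≤ (j : ℝ) := Nat.cast_nonneg j
      have : 0 < (2 * ((j + 1 + 1 : ℕ) : ℝ) + 2 - bAl q - 2) := by push_cast; linarith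
      exact this.ne'
  · have : 0 < 2 * (j : ℝ) + 2 - bAl q + (q + 1) := by linarith
    exact this.ne'

theorem bKz_pos (hq : 100 ≤ q) : 0 < bKz q := by
  obtain ⟨h2, h3⟩ := bAl_bounds hq
  unfold bKz
  have h1 : 0 < (q - 1) / (q + 1) := div_pos (by linarith) (by linarith)
  have h4 : 0 < bAl q := by linarith
  have h5 : 0 < bAl q + 2 := by linarith
  have h6 : 0 < q + 1 - bAl q := by linarith
  positivity

theorem gaF_mul_alF (hq : 100 ≤ q) : gaF q * alF q = 8 := by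
  obtain ⟨h2, h3⟩ := bAl_bounds hq
  unfold gaF alF
  have h4 : bAl q ≠ 0 := by
    have : 0 < bAl q := by linarith
    exact this.ne'
  field_simp

theorem z0F_mul (hq : 100 ≤ q) : z0F q * (q + 1) = q - 1 := by
  unfold z0F
  have h4 : q + 1 ≠ 0 := by
    have : 0 < q + 1 := by linarith
    exact this.ne'
  field_simp

theorem aW_rel (hq : 100 ≤ q) (j : ℕ) :
    aW q (j + 1) * (z0F q * pwF q (2 * j + 2 - alF q)) = ((j : ℝ) - 8) * aW q j := by
  obtain ⟨h2, h3⟩ := bAl_bounds hq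
  have hj0 : (0 : ℝ) ≤ (j : ℝ) := Nat.cast_nonneg j
  have hz : 0 < z0F q := z0F_pos (by linarith)
  have hp : 0 < pwF q (2 * j + 2 - alF q) := pwF_pos hq (by unfold alF; linarith)
  have hne : z0F q * pwF q (2 * j + 2 - alF q) ≠ 0 := (mul_pos hz hp).ne'
  rw [aW_succ, div_mul_cancel₀ _ hne]

theorem aZ_rel (hq : 100 ≤ q) (j : ℕ) :
    aZ q (j + 1) * (z0F q * pzF q (2 * j + 2 - alF q))
      = ((j : ℝ) - 8) * aZ q j + 4 * z0F q ^ 2 / bKz q * (2 * j + 2 - alF q) * aW q (j + 1) := by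
  have hz : 0 < z0F q := z0F_pos (by linarith)
  have hne : z0F q * pzF q (2 * j + 2 - alF q) ≠ 0 := mul_ne_zero hz.ne' (pzF_ne hq j)
  rw [aZ_succ, div_mul_cancel₀ _ hne]

theorem recW (hq : 100 ≤ q) (Y : ℝ) :
    Y * (-gaF q - 8 * polA (aW q) Y + polA (cTh (aW q)) Y / 2)
      = z0F q * (polA (cTh (cTh (aW q))) Y + ((q + 1) - 2 * alF q) * polA (cTh (aW q)) Y
          + (alF q ^ 2 - (q + 1) * alF q + 2 * (q + 1)) * polA (aW q) Y) := by
  have h0 : gaF q = 8 * aW q 0 := by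
    rw [aW_zero]; unfold gaF alF; ring
  have r0 := aW_rel hq 0
  have r1 := aW_rel hq 1
  have r2 := aW_rel hq 2
  have r3 := aW_rel hq 3
  have r4 := aW_rel hq 4
  have r5 := aW_rel hq 5
  have r6 := aW_rel hq 6
  have r7 := aW_rel hq 7
  simp only [pwF, Nat.reduceAdd, zero_add] at r0 r1 r2 r3 r4 r5 r6 r7
  push_cast at r0 r1 r2 r3 r4 r5 r6 r7
  simp only [polA, cTh, Finset.sum_range_succ, Finset.sum_range_zero, Nat.reduceAdd, zero_add]
  push_cast
  linear_combination (-Y) * h0 - Y * r0 - Y ^ 2 * r1 - Y ^ 3 * r2 - Y ^ 4 * r3 - Y ^ 5 * r4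
    - Y ^ 6 * r5 - Y ^ 7 * r6 - Y ^ 8 * r7

theorem recZ (hq : 100 ≤ q) (Y : ℝ) :
    Y * (-gaF q - 8 * polA (aZ q) Y + polA (cTh (aZ q)) Y / 2)
        + 4 * z0F q ^ 2 / bKz q * (polA (cTh (aW q)) Y - alF q * polA (aW q) Y)
      = z0F q * (polA (cTh (cTh (aZ q))) Y - 2 * alF q * polA (cTh (aZ q)) Y + alF q ^ 2 * polA (aZ q) Y
          + ((q + 1) - 2) * (polA (cTh (aZ q)) Y - alF q * polA (aZ q) Y) - 2 * (q + 1) * polA (aZ q) Y) := by
  have h0 : gaF q = 8 * aZ q 0 := by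
    rw [aZ_zero]; unfold gaF alF; ring
  have r0 := aZ_rel hq 0
  have r1 := aZ_rel hq 1
  have r2 := aZ_rel hq 2
  have r3 := aZ_rel hq 3
  have r4 := aZ_rel hq 4
  have r5 := aZ_rel hq 5
  have r6 := aZ_rel hq 6
  have r7 := aZ_rel hq 7
  simp only [pzF, Nat.reduceAdd, zero_add] at r0 r1 r2 r3 r4 r5 r6 r7
  push_cast at r0 r1 r2 r3 r4 r5 r6 r7
  simp only [polA, cTh, Finset.sum_range_succ, Finset.sum_range_zero, Nat.reduceAdd, zero_add]
  push_cast
  linear_combination (-Y) * h0 - Y * r0 - Y ^ 2 * r1 - Y ^ 3 * r2 - Y ^ 4 * r3 - Y ^ 5 * r4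
    - Y ^ 6 * r5 - Y ^ 7 * r6 - Y ^ 8 * r7

end

end Claimed.Agent.R324.Core
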