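/-
Row 324 (S0582), PDE core, module AP (architect helper263), residual (A8), file Res/Reg:  DEFINITION OF THE REGULAR FORM OF THE RESIDUAL.
On the northern strip (t < 0, 19/20 ≤ y ≤ 1):      Res₁ = E₃ = R3reg,      Res₀ = E₁/(q+1) = -R1reg/(q+1),      X Res₂ = E₁ = -R1reg         (Res/Id.lean),        and every term of R3reg, R1reg is O(𝔍²/Θ) = wt 2 15 0 (Res/Ts*.lean).
Notation:   atm q s F = Λ^(-s) F(Ξ),   hPol c = Σ_{j<8} c_{j+1} Λ^(7-j) X^j = Λ^8 A(Y)/X  for A = polA c,     cTh c = coefficients of th A.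
      ε = epsJ = th J + α J,    ε_a = epsA = th J_a + α J_a,    ε₁ = eps1 = J_a - (κ_z/z₀) J            (all three are O(J²)),
      thU1 = (th u)/X,  thU2 = (th² u)/X,  thV1 = (th v)/X,  thV2 = (th² v)/X,      zT = exp ζ = z_tip.
This file: definitions only (no sorry).
-/
import Claimed.Agent.R324.Core.AP.Res.Prd

set_option autoImplicit false

namespace Claimed.Agent.R324.Core

open Set Filter Topology
open scoped ContDiff

noncomputable section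

/-- `ε = th J + α J`. -/
def epsJ (q : ℝ) (w : ℝ → ℝ) (Ξ : ℝ) : ℝ := th (bJ w) Ξ + alF q * bJ w Ξ

/-- `ε_a = th J_a + α J_a`. -/
def epsA (q : ℝ) (z : ℝ → ℝ) (Ξ : ℝ) : ℝ := th (bJa z) Ξ + alF q * bJa z Ξ

/-- `ε₁ = J_a - (κ_z/z₀) J`. -/
def eps1 (q : ℝ) (w z : ℝ → ℝ) (Ξ : ℝ) : ℝ := bJa z Ξ - bKz q / z0F q * bJ w Ξ

/-- `th (F(Ξ) A(Y))/X` for `A = polA c`. -/
def thP1 (q : ℝ) (F : ℝ → ℝ) (c : ℕ → ℝ) : Fn := fun p =>
  atm q 8 (th F) p * hPol c p + atm q 8 F p * hPol (cTh c) p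

/-- `th² (F(Ξ) A(Y))/X` for `A = polA c`. -/
def thP2 (q : ℝ) (F : ℝ → ℝ) (c : ℕ → ℝ) : Fn := fun p =>
  atm q 8 (th (th F)) p * hPol c p + 2 * (atm q 8 (th F) p * hPol (cTh c) p)
    + atm q 8 F p * hPol (cTh (cTh c)) p

/-- `z_tip = exp ζ`. -/
def zT (q : ℝ) (z : ℝ → ℝ) : Fn := fun p => Real.exp (zeF q z p)

/-- the linear part of `E₃`:  `(γ Y ε A - z₀ (ε (2 th A + (m-α) A) + (th ε) A))/X`. -/
def R3lin (q : ℝ) (w : ℝ → ℝ) : Fn := fun p =>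
  gaF q * (atm q 9 (epsJ q w) p * (Xf p.2 * hPol (aW q) p))
    - z0F q * (atm q 8 (epsJ q w) p * (2 * hPol (cTh (aW q)) p + ((q + 1) - alF q) * hPol (aW q) p)
        + atm q 8 (th (epsJ q w)) p * hPol (aW q) p)

/-- the nonlinear part of `E₃`. -/
def R3non (q : ℝ) (w z : ℝ → ℝ) : Fn := fun p =>
  -(zT q z p - z0F q) * thP2 q (bJ w) (aW q) p - 2 * (bP w (XiF q p) - (q - 1)) * uW1 q w p
    + z (XiF q p) * (uZ1 q z p * Ph1 (-uZF q z p)) * th (bJ w) (XiF q p)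
    + 2 * bP w (XiF q p) * (Xf p.2 * uW1 q w p ^ 2 * Ph2 (uWF q w p))

/-- **regular form of `E₃`.** -/
def R3reg (q : ℝ) (w z : ℝ → ℝ) : Fn := fun p => R3lin q w p + R3non q w z p

/-- the linear part of `-E₁`. -/
def R1lin (q : ℝ) (w z : ℝ → ℝ) : Fn := fun p =>
  gaF q * (atm q 9 (epsA q z) p * (Xf p.2 * hPol (aZ q) p))
    - z0F q * (atm q 8 (epsA q z) p * (2 * hPol (cTh (aZ q)) p + ((q + 1) - 2 - alF q) * hPol (aZ q) p)
        + atm q 8 (th (epsA q z)) p * hPol (aZ q) p)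
    + 4 * z0F q * (atm q 8 (epsJ q w) p * hPol (aW q) p)
    - 4 * z0F q ^ 2 / bKz q * (atm q 8 (eps1 q w z) p * (hPol (cTh (aW q)) p - alF q * hPol (aW q) p))

/-- the nonlinear part `R_ζ/X`. -/
def R1non (q : ℝ) (w z : ℝ → ℝ) : Fn := fun p =>
  -2 * (q - 1) * (Xf p.2 * uZ1 q z p ^ 2 * Ph2 (-uZF q z p))
    + (q - 1) * bJa z (XiF q p) * (uZ1 q z p * Ph1 (-uZF q z p))
    + (zT q z p - z0F q) * (thP2 q (bJa z) (aZ q) p - 2 * thP1 q (bJa z) (aZ q) p)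
    - 2 * (zT q z p * th w (XiF q p) - 2 * z0F q) * thP1 q (bJ w) (aW q) p
    + zT q z p * (-bJa z (XiF q p) * thP1 q (bJa z) (aZ q) p
        + Xf p.2 * thP1 q (bJa z) (aZ q) p ^ 2 / 2 - Xf p.2 * thP1 q (bJ w) (aW q) p ^ 2)

/-- **regular form of `-E₁`.** -/
def R1reg (q : ℝ) (w z : ℝ → ℝ) : Fn := fun p => R1lin q w z p - R1non q w z p

/-- hygiene. -/
theorem core_ap_reg_hygiene : True := by
  have := @epsJ.eq_1
  have := @epsA.eq_1
  have := @eps1.eq_1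
  have := @thP1.eq_1
  have := @thP2.eq_1
  have := @zT.eq_1
  have := @R3lin.eq_1
  have := @R3non.eq_1
  have := @R3reg.eq_1
  have := @R1lin.eq_1
  have := @R1non.eq_1
  have := @R1reg.eq_1
  trivial

end

end Claimed.Agent.R324.Core
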