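/-
Row 324 (S0582), PDE core, module AP (architect helper263), residual (A8), file Res/RegX:   X * (regular form) = the decomposition in the numbers at the point.        Definitions: Res/Reg.lean, Res/Prd.lean, Core/AP/Defs.lean.
      p = (t,y), t < 0;   Ξ = XiF q p,  Y = YF p = X/Λ;    atm q s F p = Λ^(-s) F(Ξ)  (rpow, s real);    `hPol_polA` (Prd2):  X (Λ^(-8) hPol c p) = polA c Y.

* `X_atm8`:   unfold atm;  X (Λ^(-8) F(Ξ) hPol c) = F(Ξ) (X (Λ^(-8) hPol c)) = F(Ξ) polA c Y.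
* `X_atm9`:   Λ^(-9) = Λ^(-8) Λ^(-1) (`Real.rpow_add`, -9 = -8 + -1; `Real.rpow_neg_one`),  X Λ⁻¹ = Y (YF, div_eq_mul_inv).
* `X_thP1`, `X_thP2`:  unfold, `mul_add`, `X_atm8` for each term.
* `th_epsJ`, `th_epsA`:  th is linear (`ap_th_add`, `ap_th_const_mul`, TipB);  smoothness of th J: `th_contDiff_sc3`, `IsBohm.contDiff_bJ_sc3`, `BP.ap_contDiff_bJa`.
* `X_uW1`, `X_uZ1`:   X uW1 = uWF = J(Ξ) A(Y) (`uWF_prd`).
* `zT_eq`:    exp ζ = z(Ξ) exp(v)  (`zeF_prd`, `Real.exp_add`, `Real.exp_log (h.pos _)`).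
* `X_R3lin`, `X_R1lin`:   unfold;  distribute X;  `X_atm8`, `X_atm9`, `th_epsJ`…;  unfold epsJ;  ring.
* `X_R3non`:  X (z(Ξ) (uZ1 Ph1(-v)) th J) = z(Ξ) (v Ph1(-v)) th J,    v Ph1(-v) = exp v - 1  (`ph1_mul (-v)`:  -v Ph1(-v) = 1 - exp v);      X (X uW1² Ph2 u) = u² Ph2 u = u - 1 + exp(-u) (`ph2_mul`).
* `X_R1non`:  X (X uZ1² Ph2(-v)) = v² Ph2(-v) = -v - 1 + exp v  (`ph2_mul (-v)`, (-v)² = v²);     X (X thP1²) = (X thP1)².
      (set a := X * thP1 … etc. and finish by ring / linear_combination.)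
-/
import Claimed.Agent.R324.Core.AP.Res.Reg
import Claimed.Agent.R324.Core.AP.Res.JetT

set_option autoImplicit false

namespace Claimed.Agent.R324.Core

open Set Filter Topology
open scoped ContDiff

noncomputable section

variable {t : ℝ} {q : ℕ} {w z : ℝ → ℝ}

theorem X_atm8 (q : ℝ) (F : ℝ → ℝ) (c : ℕ → ℝ) (ht : t < 0) (y : ℝ) :
    Xf y * (atm q 8 F (t, y) * hPol c (t, y)) = F (XiF q (t, y)) * polA c (YF (t, y)) := by
  rw [← hPol_polA c ht y]
  simp only [atm]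
  ring

theorem X_atm9 (q : ℝ) (F : ℝ → ℝ) (c : ℕ → ℝ) (ht : t < 0) (y : ℝ) :
    Xf y * (atm q 9 F (t, y) * (Xf y * hPol c (t, y)))
      = YF (t, y) * F (XiF q (t, y)) * polA c (YF (t, y)) := by
  have hL : 0 < -t := by linarith
  have e9 : (-t) ^ (-(9 : ℝ)) = (-t) ^ (-(8 : ℝ)) * (-t)⁻¹ := by
    rw [← Real.rpow_neg_one (-t), ← Real.rpow_add hL]
    norm_num
  have eY : YF (t, y) = Xf y * (-t)⁻¹ := by
    simp only [YF, div_eq_mul_inv]
  rw [← hPol_polA c ht y, eY]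
  simp only [atm]
  rw [e9]
  ring

theorem X_thP1 (q : ℝ) (F : ℝ → ℝ) (c : ℕ → ℝ) (ht : t < 0) (y : ℝ) :
    Xf y * thP1 q F c (t, y)
      = th F (XiF q (t, y)) * polA c (YF (t, y)) + F (XiF q (t, y)) * polA (cTh c) (YF (t, y)) := by
  simp only [thP1]
  rw [mul_add, X_atm8 q _ c ht y, X_atm8 q _ (cTh c) ht y]

theorem X_thP2 (q : ℝ) (F : ℝ → ℝ) (c : ℕ → ℝ) (ht : t < 0) (y : ℝ) :
    Xf y * thP2 q F c (t, y)
      = th (th F) (XiF q (t, y)) * polA c (YF (t, y)) + 2 * th F (XiF q (t, y)) * polA (cTh c) (YF (t, y))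
        + F (XiF q (t, y)) * polA (cTh (cTh c)) (YF (t, y)) := by
  have a1 := X_atm8 q (th (th F)) c ht y
  have a2 := X_atm8 q (th F) (cTh c) ht y
  have a3 := X_atm8 q F (cTh (cTh c)) ht y
  simp only [thP2]
  linear_combination a1 + 2 * a2 + a3

theorem BP.th_epsJ (h : BP q w z) (Ξ : ℝ) :
    th (epsJ q w) Ξ = th (th (bJ w)) Ξ + alF q * th (bJ w) Ξ := by
  have cJ : ContDiff ℝ ∞ (bJ w) := h.bohm.contDiff_bJ_sc3
  have dJ : Differentiable ℝ (bJ w) := cJ.differentiable (by simp)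
  have dtJ : Differentiable ℝ (th (bJ w)) := (th_contDiff_sc3 cJ).differentiable (by simp)
  have e : epsJ q w = fun x => th (bJ w) x + (fun x => alF q * bJ w x) x := rfl
  rw [e, ap_th_add dtJ (dJ.const_mul _), ap_th_const_mul _ dJ]

theorem BP.th_epsA (h : BP q w z) (Ξ : ℝ) :
    th (epsA q z) Ξ = th (th (bJa z)) Ξ + alF q * th (bJa z) Ξ := by
  have cJ : ContDiff ℝ ∞ (bJa z) := h.ap_contDiff_bJa
  have dJ : Differentiable ℝ (bJa z) := cJ.differentiable (by simp)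
  have dtJ : Differentiable ℝ (th (bJa z)) := (th_contDiff_sc3 cJ).differentiable (by simp)
  have e : epsA q z = fun x => th (bJa z) x + (fun x => alF q * bJa z x) x := rfl
  rw [e, ap_th_add dtJ (dJ.const_mul _), ap_th_const_mul _ dJ]

theorem BP.zT_eq (h : BP q w z) (ht : t < 0) (y : ℝ) :
    zT q z (t, y) = z (XiF q (t, y)) * Real.exp (uZF q z (t, y)) := by
  simp only [zT]
  rw [h.zeF_prd ht y, Real.exp_add, Real.exp_log (h.pos _), uZF_prd (q : ℝ) z ht y]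

theorem BP.X_R3lin (h : BP q w z) (ht : t < 0) (y : ℝ) :
    Xf y * R3lin q w (t, y)
      = gaF q * YF (t, y) * (th (bJ w) (XiF q (t, y)) + alF q * bJ w (XiF q (t, y))) * polA (aW q) (YF (t, y))
        - z0F q * ((th (bJ w) (XiF q (t, y)) + alF q * bJ w (XiF q (t, y)))
              * (2 * polA (cTh (aW q)) (YF (t, y)) + (((q : ℝ) + 1) - alF q) * polA (aW q) (YF (t, y)))
            + (th (th (bJ w)) (XiF q (t, y)) + alF q * th (bJ w) (XiF q (t, y))) * polA (aW q) (YF (t, y))) := by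
  have a9 := X_atm9 (q : ℝ) (epsJ q w) (aW q) ht y
  have a8a := X_atm8 (q : ℝ) (epsJ q w) (cTh (aW q)) ht y
  have a8b := X_atm8 (q : ℝ) (epsJ q w) (aW q) ht y
  have a8c := X_atm8 (q : ℝ) (th (epsJ q w)) (aW q) ht y
  rw [h.th_epsJ] at a8c
  simp only [epsJ] at a9 a8a a8b
  simp only [R3lin]
  linear_combination gaF q * a9 - z0F q * (2 * a8a + (((q : ℝ) + 1) - alF q) * a8b + a8c)

theorem BP.X_R3non (h : BP q w z) (ht : t < 0) (y : ℝ) :
    Xf y * R3non q w z (t, y)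
      = -(z (XiF q (t, y)) * Real.exp (uZF q z (t, y)) - z0F q)
            * (th (th (bJ w)) (XiF q (t, y)) * polA (aW q) (YF (t, y))
              + 2 * th (bJ w) (XiF q (t, y)) * polA (cTh (aW q)) (YF (t, y))
              + bJ w (XiF q (t, y)) * polA (cTh (cTh (aW q))) (YF (t, y)))
        - 2 * (bP w (XiF q (t, y)) - ((q : ℝ) - 1)) * (bJ w (XiF q (t, y)) * polA (aW q) (YF (t, y)))
        + (z (XiF q (t, y)) * Real.exp (uZF q z (t, y)) - z (XiF q (t, y))) * th (bJ w) (XiF q (t, y))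
        + 2 * bP w (XiF q (t, y))
            * (Real.exp (-uWF q w (t, y)) - 1 + bJ w (XiF q (t, y)) * polA (aW q) (YF (t, y))) := by
  have e1 := h.zT_eq ht y
  have e2 := X_thP2 (q : ℝ) (bJ w) (aW q) ht y
  have e3 : Xf y * uW1 q w (t, y) = uWF q w (t, y) := rfl
  have e4 : Xf y * uZ1 q z (t, y) = uZF q z (t, y) := rfl
  have e5 := ph1_mul (-uZF q z (t, y))
  have e6 := ph2_mul (uWF q w (t, y))
  have e7 := uWF_prd (q : ℝ) w ht y
  rw [neg_neg] at e5
  simp only [R3non]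
  set T2 := th (th (bJ w)) (XiF q (t, y)) * polA (aW q) (YF (t, y))
              + 2 * th (bJ w) (XiF q (t, y)) * polA (cTh (aW q)) (YF (t, y))
              + bJ w (XiF q (t, y)) * polA (cTh (cTh (aW q))) (YF (t, y)) with hT2
  linear_combination (-(zT q z (t, y) - z0F q)) * e2 - T2 * e1
    - 2 * (bP w (XiF q (t, y)) - ((q : ℝ) - 1)) * (e3 + e7)
    + z (XiF q (t, y)) * th (bJ w) (XiF q (t, y)) * Ph1 (-uZF q z (t, y)) * e4
    - z (XiF q (t, y)) * th (bJ w) (XiF q (t, y)) * e5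
    + 2 * bP w (XiF q (t, y)) * Ph2 (uWF q w (t, y)) * (Xf y * uW1 q w (t, y) + uWF q w (t, y)) * e3
    + 2 * bP w (XiF q (t, y)) * e6 + 2 * bP w (XiF q (t, y)) * e7

theorem BP.X_R1lin (h : BP q w z) (ht : t < 0) (y : ℝ) :
    Xf y * R1lin q w z (t, y)
      = gaF q * YF (t, y) * (th (bJa z) (XiF q (t, y)) + alF q * bJa z (XiF q (t, y))) * polA (aZ q) (YF (t, y))
        - z0F q * ((th (bJa z) (XiF q (t, y)) + alF q * bJa z (XiF q (t, y)))
              * (2 * polA (cTh (aZ q)) (YF (t, y)) + (((q : ℝ) + 1) - 2 - alF q) * polA (aZ q) (YF (t, y)))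
            + (th (th (bJa z)) (XiF q (t, y)) + alF q * th (bJa z) (XiF q (t, y))) * polA (aZ q) (YF (t, y)))
        + 4 * z0F q * (th (bJ w) (XiF q (t, y)) + alF q * bJ w (XiF q (t, y))) * polA (aW q) (YF (t, y))
        - 4 * z0F q ^ 2 / bKz q * (bJa z (XiF q (t, y)) - bKz q / z0F q * bJ w (XiF q (t, y)))
            * (polA (cTh (aW q)) (YF (t, y)) - alF q * polA (aW q) (YF (t, y))) := by
  have b9 := X_atm9 (q : ℝ) (epsA q z) (aZ q) ht y
  have b8a := X_atm8 (q : ℝ) (epsA q z) (cTh (aZ q)) ht y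
  have b8b := X_atm8 (q : ℝ) (epsA q z) (aZ q) ht y
  have b8c := X_atm8 (q : ℝ) (th (epsA q z)) (aZ q) ht y
  have c8 := X_atm8 (q : ℝ) (epsJ q w) (aW q) ht y
  have d8a := X_atm8 (q : ℝ) (eps1 q w z) (cTh (aW q)) ht y
  have d8b := X_atm8 (q : ℝ) (eps1 q w z) (aW q) ht y
  rw [h.th_epsA] at b8c
  simp only [epsA] at b9 b8a b8b
  simp only [epsJ] at c8
  simp only [eps1] at d8a d8b
  simp only [R1lin]
  linear_combination gaF q * b9 - z0F q * (2 * b8a + (((q : ℝ) + 1) - 2 - alF q) * b8b + b8c)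
    + 4 * z0F q * c8 - 4 * z0F q ^ 2 / bKz q * (d8a - alF q * d8b)

theorem BP.X_R1non (h : BP q w z) (ht : t < 0) (y : ℝ) :
    Xf y * R1non q w z (t, y)
      = -2 * ((q : ℝ) - 1) * (Real.exp (uZF q z (t, y)) - 1 - bJa z (XiF q (t, y)) * polA (aZ q) (YF (t, y)))
        + ((q : ℝ) - 1) * bJa z (XiF q (t, y)) * (Real.exp (uZF q z (t, y)) - 1)
        + (z (XiF q (t, y)) * Real.exp (uZF q z (t, y)) - z0F q)
            * ((th (th (bJa z)) (XiF q (t, y)) * polA (aZ q) (YF (t, y))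
                + 2 * th (bJa z) (XiF q (t, y)) * polA (cTh (aZ q)) (YF (t, y))
                + bJa z (XiF q (t, y)) * polA (cTh (cTh (aZ q))) (YF (t, y)))
              - 2 * (th (bJa z) (XiF q (t, y)) * polA (aZ q) (YF (t, y))
                + bJa z (XiF q (t, y)) * polA (cTh (aZ q)) (YF (t, y))))
        - 2 * (z (XiF q (t, y)) * Real.exp (uZF q z (t, y)) * th w (XiF q (t, y)) - 2 * z0F q)
            * (th (bJ w) (XiF q (t, y)) * polA (aW q) (YF (t, y))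
                + bJ w (XiF q (t, y)) * polA (cTh (aW q)) (YF (t, y)))
        + z (XiF q (t, y)) * Real.exp (uZF q z (t, y))
            * (-bJa z (XiF q (t, y)) * (th (bJa z) (XiF q (t, y)) * polA (aZ q) (YF (t, y))
                  + bJa z (XiF q (t, y)) * polA (cTh (aZ q)) (YF (t, y)))
              + (th (bJa z) (XiF q (t, y)) * polA (aZ q) (YF (t, y))
                  + bJa z (XiF q (t, y)) * polA (cTh (aZ q)) (YF (t, y))) ^ 2 / 2
              - (th (bJ w) (XiF q (t, y)) * polA (aW q) (YF (t, y))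
                  + bJ w (XiF q (t, y)) * polA (cTh (aW q)) (YF (t, y))) ^ 2) := by
  have e1 := h.zT_eq ht y
  have f1 := X_thP1 (q : ℝ) (bJa z) (aZ q) ht y
  have f2 := X_thP2 (q : ℝ) (bJa z) (aZ q) ht y
  have f3 := X_thP1 (q : ℝ) (bJ w) (aW q) ht y
  have e4 : Xf y * uZ1 q z (t, y) = uZF q z (t, y) := rfl
  have e5 := ph1_mul (-uZF q z (t, y))
  have e6 := ph2_mul (-uZF q z (t, y))
  have e7 := uZF_prd (q : ℝ) z ht y
  rw [neg_neg] at e5 e6
  simp only [R1non]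
  set T1a := th (bJa z) (XiF q (t, y)) * polA (aZ q) (YF (t, y))
                + bJa z (XiF q (t, y)) * polA (cTh (aZ q)) (YF (t, y)) with hT1a
  set T2a := th (th (bJa z)) (XiF q (t, y)) * polA (aZ q) (YF (t, y))
                + 2 * th (bJa z) (XiF q (t, y)) * polA (cTh (aZ q)) (YF (t, y))
                + bJa z (XiF q (t, y)) * polA (cTh (cTh (aZ q))) (YF (t, y)) with hT2a
  set T1w := th (bJ w) (XiF q (t, y)) * polA (aW q) (YF (t, y))
                + bJ w (XiF q (t, y)) * polA (cTh (aW q)) (YF (t, y)) with hT1w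
  linear_combination
    (-2 * ((q : ℝ) - 1) * Ph2 (-uZF q z (t, y)) * (Xf y * uZ1 q z (t, y) + uZF q z (t, y))) * e4
    - 2 * ((q : ℝ) - 1) * e6 + 2 * ((q : ℝ) - 1) * e7
    + ((q : ℝ) - 1) * bJa z (XiF q (t, y)) * Ph1 (-uZF q z (t, y)) * e4
    - ((q : ℝ) - 1) * bJa z (XiF q (t, y)) * e5
    + (zT q z (t, y) - z0F q) * (f2 - 2 * f1) + (T2a - 2 * T1a) * e1
    - 2 * (zT q z (t, y) * th w (XiF q (t, y)) - 2 * z0F q) * f3 - 2 * th w (XiF q (t, y)) * T1w * e1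
    + zT q z (t, y) * (-bJa z (XiF q (t, y)) * f1 + (Xf y * thP1 q (bJa z) (aZ q) (t, y) + T1a) / 2 * f1
        - (Xf y * thP1 q (bJ w) (aW q) (t, y) + T1w) * f3)
    + (-bJa z (XiF q (t, y)) * T1a + T1a ^ 2 / 2 - T1w ^ 2) * e1

end

end Claimed.Agent.R324.Core
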