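/-
Row 324 (S0582), PDE core, module AP (architect helper263), residual (A8), file Res/Id:   THE RESIDUAL OF  g = bgA q w z  EQUALS ITS REGULAR FORM ON THE OPEN NORTHERN STRIP (t < 0, 19/20 < y < 1).
      Res q g = ![ (X Z ∂_t B - GAF - q GBF)/(q+1),   ∂_t w - GCF,   Z ∂_t B - GbF ]     (Core/Defs.lean).       X = Xf y ∈ (0,1),  Λ = -t,  Y = YF (t,y) = X/Λ (so X = Y Λ),  Ξ = XiF q (t,y) > 0.
      Ingredients:   IdG (`resN_A, resN_B, resN_C`),  JetG (`jg_dTw, jg_dTB`),  JetW, JetZ (th-jets and Λ ∂_t of w_tip, ζ),  Prof (`prof_W, prof_Z2`),  Rec (`recW, recZ, gaF_mul_alF, z0F_mul, bKz_pos`, `z0F_pos`),  RegX (`X_R3lin, X_R3non, X_R1lin, X_R1non, zT_eq`),  Alg (`ap_alg_E3, ap_alg_E1`),  `X_mul_GbF` (PR/Id.lean),  `BP.bgA_sm` (BgA1).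

* `XiF_pos_strip`:  X > 0, λ² > 0 (`lam2_pos`).
* `X_exp_wtip`:  `BP.exp_wtip` (TipG):  exp(-w_tip) = atm (2γ) (e^{-w}) exp(-u);    X Λ^(-2γ) = Ξ  (lam2, `Real.rpow_neg`),   Ξ e^{-w(Ξ)} = P(Ξ)  (bP).
* `res1_strip`:  it suffices to prove X * Res₁ = X * R3reg (X ≠ 0: `mul_left_cancel₀`).      X Res₁ = X ∂_t w_tip - X GCF   (Res … 1 = dT g.w - GCF by `rfl`/simp [Res]; `jg_dTw`),    X ∂_t w_tip = Y (Λ ∂_t w_tip)  (X = Y Λ: YF, field_simp),  `dTL_wtip`;   `resN_C`, `thF_wtip`, `thF2_wtip`, `X_exp_wtip`,  exp ζ = z(Ξ) exp v (`zT_eq`, zT).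
                 This is the left side of `ap_alg_E3` with   γ = gaF q, α = alF q, z0 = z0F q, bz = z(Ξ), Ev = exp v, Eu = exp(-u), P = bP w Ξ, Q = th w Ξ, J = bJ w Ξ (= 2 - Q by definition), J1 = th J Ξ, J2 = th (th J) Ξ, A, A1, A2 = polA (aW q) Y, polA (cTh ..) Y, polA (cTh (cTh ..)) Y;     hypotheses: `gaF_mul_alF`, `z0F_mul`, `prof_W`, rfl, `recW`.
                 The right side is X R3lin + X R3non (`X_R3lin`, `X_R3non`);  R3reg = R3lin + R3non.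
-/
import Claimed.Agent.R324.Core.AP.Res.IdG
import Claimed.Agent.R324.Core.AP.Res.JetW
import Claimed.Agent.R324.Core.AP.Res.JetZ
import Claimed.Agent.R324.Core.AP.Res.Rec
import Claimed.Agent.R324.Core.AP.Res.RegX
import Claimed.Agent.R324.Core.PR.Id

set_option autoImplicit false

namespace Claimed.Agent.R324.Core

open Set Filter Topology
open scoped ContDiff

noncomputable section

variable {t y : ℝ} {q : ℕ} {w z : ℝ → ℝ}

theorem ap_Xf_pos_strip (hy : y ∈ Ioo (19 / 20 : ℝ) 1) : 0 < Xf y := by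
  have h1 := hy.1
  have h2 := hy.2
  unfold Xf
  nlinarith

theorem ap_y_ne_strip (hy : y ∈ Ioo (19 / 20 : ℝ) 1) : y ≠ 0 := by
  have h1 := hy.1
  intro h0
  rw [h0] at h1
  norm_num at h1

theorem ap_X_eq_Y_mul (ht : t < 0) (y : ℝ) : Xf y = YF (t, y) * (-t) := by
  have h1 : -t ≠ 0 := by
    have : 0 < -t := by linarith
    exact this.ne'
  show Xf y = Xf y / (-t) * (-t)
  rw [div_mul_cancel₀ _ h1]

theorem XiF_pos_strip (q : ℝ) (ht : t < 0) (hy : y ∈ Ioo (19 / 20 : ℝ) 1) : 0 < XiF q (t, y) :=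
  div_pos (ap_Xf_pos_strip hy) (lam2_pos q ht)

theorem BP.X_exp_wtip (h : BP q w z) (ht : t < 0) (y : ℝ) :
    Xf y * Real.exp (-wtip q w (t, y)) = bP w (XiF q (t, y)) * Real.exp (-uWF q w (t, y)) := by
  have e : Xf y * (-t) ^ (-(2 * gaF (q : ℝ))) = XiF q (t, y) := by
    rw [Real.rpow_neg (by linarith)]
    rfl
  rw [h.exp_wtip ht y]
  simp only [atm, bP]
  rw [← e]
  ring

theorem BP.res1_strip (h : BP q w z) (ht : t < 0) (hy : y ∈ Ioo (19 / 20 : ℝ) 1) :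
    Res q (bgA q w z) 1 (t, y) = R3reg q w z (t, y) := by
  have hy0 : y ≠ 0 := ap_y_ne_strip hy
  have hXpos : 0 < Xf y := ap_Xf_pos_strip hy
  have hΞ := XiF_pos_strip (q : ℝ) ht hy
  have hqR := h.hqR
  apply mul_left_cancel₀ hXpos.ne'
  have hR : Res q (bgA q w z) 1 (t, y) = dT (bgA q w z).w (t, y) - GCF q (bgA q w z) (t, y) := rfl
  have hreg : R3reg q w z (t, y) = R3lin q w (t, y) + R3non q w z (t, y) := rfl
  have hE : Real.exp (zeF q z (t, y)) = z (XiF q (t, y)) * Real.exp (uZF q z (t, y)) := h.zT_eq ht y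
  have h1 : Xf y * dT (wtip q w) (t, y) = YF (t, y) * ((-t) * dT (wtip q w) (t, y)) := by
    rw [← mul_assoc, ← ap_X_eq_Y_mul ht y]
  have h2 := h.X_exp_wtip ht y
  have h3 := ap_alg_E3 q (gaF q) (alF q) (z0F q) (YF (t, y)) (z (XiF q (t, y)))
    (Real.exp (uZF q z (t, y))) (Real.exp (-uWF q w (t, y))) (bP w (XiF q (t, y)))
    (th w (XiF q (t, y))) (bJ w (XiF q (t, y))) (th (bJ w) (XiF q (t, y)))
    (th (th (bJ w)) (XiF q (t, y))) (polA (aW q) (YF (t, y))) (polA (cTh (aW q)) (YF (t, y)))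
    (polA (cTh (cTh (aW q))) (YF (t, y))) (gaF_mul_alF hqR) (z0F_mul hqR) (h.prof_W hΞ.le) rfl
    (recW hqR _)
  rw [hR, hreg, mul_sub, mul_add, h.X_R3lin ht y, h.X_R3non ht y, h.resN_C ht hy,
    jg_dTw q w z t hy.1, h.thF_wtip ht hy0, h.thF2_wtip ht hy0, h1, h.dTL_wtip ht y, hE]
  linear_combination h3 + 2 * h2

end

end Claimed.Agent.R324.Core
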