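/-
Row 324 (S0582), PDE core, module AP (architect helper263), residual (A8), file Res/CrudeA:   GLOBAL (crude) symbol bounds of the coefficients of g = bgA q w z.       D admissible (`DomOK D`; NO northern condition), n arbitrary.
      Inputs (global): `BP.gts_B` (B ∈ wt 0 0 (-1), m ≤ 7), `BP.gts_W` (W ∈ wt 1 7 0), `BP.g_den_lower`, `bgA_pos` (BgA1, TipE);  `ts_bgA_wp` (∂_y w ∈ wt 0 0 (-1), m ≤ 6), `ts_bgA_ew`, `ts_bgA_dTw` (∂_t w ∈ wt 1 7 0) (BgA2);  `ts_dT_bgA_B` (∂_t B ∈ wt 1 7 (-1), m ≤ 5) (BgA3).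
      Tools: `TS.X_rh` (X ∈ wt 0 0 1), `TS.mul_wt`, `TS.dY_wt` (costs c-1; needs order n+1), `TS.le_wt` (a ≤ a', c ≤ c', 8(a'-a) ≤ (b'-b)+(c'-c)), `TS.inv` (Cal/CompB), `TS.yfun`, `TS.one_wt`, `TS.const`.      Definitions `Bg.Z, dd, Bp, wp, wpp, ap`, `DD`: Core/Defs.lean.

* `gts_XB`:   X (0,0,1) × B (0,0,-1).
* `gts_Z`:    as `ts_bgA_Z` in TipE:  Z = (1 + X B)⁻¹,  1 + X B ∈ wt 0 0 0, ≥ c > 0 (`g_den_lower`), ≠ 0 (`bgA_pos`);  `TS.inv`.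
* `gts_dd`:   𝖽 = dY (X B) by definition;  `TS.dY_wt` applied to `gts_XB` (order n+1).            `gts_ap`:  Z 𝖽.
* `gts_wpp`:  dY (dY w),  `TS.dY_wt` applied to `ts_bgA_wp`.             `gts_DDw`:  DD w = X ∂_y² w - y ∂_y w:  (0,0,1)+(0,0,-2);   y ∈ TS 1 (`TS.yfun contDiff_id`).
* `gts_W1`:   wt 1 7 0 ≤ K wt 0 0 (-1)  (da = 1, db = 7, dc = 1).        `gts_dYW`:  `TS.dY_wt`.
* `gts_dTw1`: wt 1 7 0 ≤ K wt 0 0 (-1).            `gts_dTB1`:  wt 1 7 (-1) ≤ K wt 0 0 (-2).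
-/
import Claimed.Agent.R324.Core.AP.BgA2
import Claimed.Agent.R324.Core.AP.BgA3

set_option autoImplicit false

namespace Claimed.Agent.R324.Core

open Set Filter Topology
open scoped ContDiff

noncomputable section

variable {D : Set (ℝ × ℝ)} {m n : ℕ} {q : ℕ} {w z : ℝ → ℝ}

theorem BP.gts_XB (h : BP q w z) (hD : DomOK D) (hm : m ≤ 7) :
    TS q D m n (wt q 0 0 0) (fun p => Xf p.2 * (bgA q w z).B p) := by
  have h1 : TS q D m n (wt q (0 + 0) (0 + 0) (1 + (-1))) (fun p => Xf p.2 * (bgA q w z).B p) :=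
    TS.mul_wt h.hqR hD (TS.X_rh h.hqR hD) (h.gts_B hD hm)
  exact h1

theorem BP.gts_Z (h : BP q w z) (hD : DomOK D) (hm : m ≤ 7) :
    TS q D m n (wt q 0 0 0) (bgA q w z).Z := by
  have hden : TS q D m n (wt q 0 0 0) (fun p => 1 + Xf p.2 * (bgA q w z).B p) :=
    TS.add hD (TS.one_wt.1 (TS.const 1)) (h.gts_XB hD hm)
  obtain ⟨c, hc, hlow⟩ := h.g_den_lower hD
  have hinv := TS.inv hD (fun t _ y => (bgA_pos q w z (t, y)).ne') (TS.one_wt.2 hden) hc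
    (fun _ _ => one_pos) (fun p hp => by rw [mul_one]; exact hlow p hp)
  have e : (bgA q w z).Z = fun p => (1 + Xf p.2 * (bgA q w z).B p)⁻¹ := by
    funext p
    simp [Bg.Z, one_div]
  rw [e]
  exact TS.congr_wt (fun p _ => by rw [wt_zero]; norm_num) hinv

theorem BP.gts_dd (h : BP q w z) (hD : DomOK D) (hm : m ≤ 7) :
    TS q D m n (wt q 0 0 (-1)) (bgA q w z).dd := by
  have h1 : TS q D m n (wt q 0 0 (0 - 1)) (dY (fun p => Xf p.2 * (bgA q w z).B p)) :=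
    TS.dY_wt h.hqR hD (h.gts_XB hD hm)
  exact h1

theorem BP.gts_ap (h : BP q w z) (hD : DomOK D) (hm : m ≤ 7) :
    TS q D m n (wt q 0 0 (-1)) (bgA q w z).ap := by
  have h1 : TS q D m n (wt q (0 + 0) (0 + 0) (0 + (-1)))
      (fun p => (bgA q w z).Z p * (bgA q w z).dd p) :=
    TS.mul_wt h.hqR hD (h.gts_Z hD hm) (h.gts_dd hD hm)
  exact h1

theorem BP.gts_wpp (h : BP q w z) (hD : DomOK D) (hm : m ≤ 6) :
    TS q D m n (wt q 0 0 (-2)) (bgA q w z).wpp := by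
  have h1 : TS q D m n (wt q 0 0 (-1 - 1)) (dY (dY (bgA q w z).w)) :=
    TS.dY_wt h.hqR hD (h.ts_bgA_wp hD hm)
  exact h1

theorem BP.gts_DDw (h : BP q w z) (hD : DomOK D) (hm : m ≤ 6) :
    TS q D m n (wt q 0 0 (-1)) (DD (bgA q w z).w) := by
  have h1 : TS q D m n (wt q (0 + 0) (0 + 0) (1 + (-2)))
      (fun p => Xf p.2 * (bgA q w z).wpp p) :=
    TS.mul_wt h.hqR hD (TS.X_rh h.hqR hD) (h.gts_wpp hD hm)
  have h2 : TS q D m n (wt q (0 + 0) (0 + 0) (0 + (-1)))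
      (fun p => (fun y : ℝ => y) p.2 * dY (bgA q w z).w p) :=
    TS.mul_wt h.hqR hD (TS.one_wt.1 (TS.yfun h.hqR hD contDiff_id)) (h.ts_bgA_wp hD hm)
  have h3 := TS.sub hD (ϱ := wt q 0 0 (-1)) h1 h2
  exact h3

theorem BP.gts_W1 (h : BP q w z) (hD : DomOK D) (hm : m ≤ 7) :
    TS q D m n (wt q 0 0 (-1)) (bgA q w z).W :=
  TS.le_wt h.hqR hD (by norm_num) (by norm_num) (by norm_num) (h.gts_W hD hm)

theorem BP.gts_dYW (h : BP q w z) (hD : DomOK D) (hm : m ≤ 7) :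
    TS q D m n (wt q 0 0 (-2)) (dY (bgA q w z).W) := by
  have h1 : TS q D m n (wt q 0 0 (-1 - 1)) (dY (bgA q w z).W) :=
    TS.dY_wt h.hqR hD (h.gts_W1 hD hm)
  exact h1

theorem BP.gts_dTw1 (h : BP q w z) (hD : DomOK D) (hm : m ≤ 6) :
    TS q D m n (wt q 0 0 (-1)) (dT (bgA q w z).w) :=
  TS.le_wt h.hqR hD (by norm_num) (by norm_num) (by norm_num) (h.ts_bgA_dTw hD hm)

theorem BP.gts_dTB1 (h : BP q w z) (hD : DomOK D) (hm : m ≤ 5) :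
    TS q D m n (wt q 0 0 (-2)) (dT (bgA q w z).B) :=
  TS.le_wt h.hqR hD (by norm_num) (by norm_num) (by norm_num) (h.ts_dT_bgA_B hD hm)

end

end Claimed.Agent.R324.Core
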