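/-
Row 324 (S0582), PDE core, module AP (architect helper263), residual (A8), file Res/CrudeB:   CRUDE GLOBAL BOUND OF THE RESIDUAL:   Res₀, Res₁, X Res₂ ∈ wt 0 0 (-1) = 1/r̂²  on every admissible domain;   on y ≤ 19/20 all weights are comparable.
      g = bgA q w z.    Definitions GAF, GBF, GCF, Res: Core/Defs.lean.     Inputs: Res/CrudeA.lean, `ts_bgA_wp`, `ts_bgA_ew` (BgA2), `gts_B` (BgA1).      m ≤ 5, n arbitrary.
      Tools: `TS.mul_wt, TS.add, TS.sub, TS.neg, TS.const_mul, TS.le_wt, TS.X_rh, TS.yfun, TS.const, TS.one_wt, TS.congr, TS.of_le`.       Constants and y:  wt 0 0 0 ≤ K wt 0 0 (-1)  (`TS.le_wt`, dc = 1).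

WEIGHTS (a = 0, b = 0 everywhere; only the exponent c of r̂² is listed):    Z: 0,  X: +1,  y, constants: 0,  B, 𝖽, a', w', W, e^{-w}, ∂_t w, DD w: -1,   w'', ∂_y W, ∂_t B: -2.
* `ts_GAF`:   Z (-2q + 2 DD w + X w'²): -1;     Z² 𝖽 (q y - X w'): -1;     X W a': -1;     X ∂_y W: -1;     y W: -1.
* `ts_GBF`:   B Z, Z, y Z² 𝖽, y Z w', y W: ≥ -1.
* `ts_GCF`:   Z (DD w - X a' w'/2 - q y w' + X w'²): -1;    e^{-w}: -1;    X W w': -1.
* `ts_Res0c`: Res … 0 = (X Z ∂_t B - GAF - q GBF)/(q+1)  (by definition: `Res`, Matrix.cons_val_zero; use `TS.congr` with `fun t _ y => by simp [Res]`/rfl);   X Z ∂_t B: +1+0-2 = -1.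
* `ts_Res1c`: ∂_t w - GCF.
* `ts_XRes2c`: X Res₂ = X Z ∂_t B - X GbF = X Z ∂_t B - (GAF - GBF)   for t < 0 (`X_mul_GbF`, PR/Id.lean, with `BP.bgA_sm`).
* `wt_le_south`:  if y ≤ 19/20 on D then  39/400 ≤ X̃ (`Xt_eq`: X̃ = 1-y² for y ≥ 1/2;  `Xt_mem`: X̃ ≥ 3/4 for y ≤ 1/2),  so  R = rh2 ∈ [39/400, K₀], Θ ∈ [39/400, 2]  (`rh2_le_dom`, `Th_le_dom`, Cal/CompC; R ≥ X̃, Θ ≥ X̃: `ap_Xt_le_rh2`, `ap_Xt_le_Th`);   every factor of wt (rpow, zpow) lies between two positive constants:   wt q a b c p ≤ K₁  and  wt q a' b' c' p ≥ k₂ > 0.     (For zpow with an integer exponent e and x ∈ [l, u], 0 < l ≤ 1 ≤ u… :   x^e ≤ max-type bound;   simplest:  x^e ≤ (u/l)^|e|-type estimate, or treat e ≥ 0 and e < 0 separately with `zpow_le_zpow_left₀`, `zpow_neg`.)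
-/
import Claimed.Agent.R324.Core.AP.Res.CrudeA
import Claimed.Agent.R324.Core.PR.Id

set_option autoImplicit false

namespace Claimed.Agent.R324.Core

open Set Filter Topology
open scoped ContDiff

noncomputable section

variable {D : Set (ℝ × ℝ)} {m n : ℕ} {q : ℕ} {w z : ℝ → ℝ}

/-! ### book-keeping: only the exponent `c` of `r̂²` moves -/

theorem ap_cr_mul {q : ℝ} {f g : Fn} {c c' : ℤ} (c'' : ℤ) (hq : 100 ≤ q) (hD : DomOK D)
    (hf : TS q D m n (wt q 0 0 c) f) (hg : TS q D m n (wt q 0 0 c') g) (e : c + c' = c'') :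
    TS q D m n (wt q 0 0 c'') (fun p => f p * g p) := by
  subst e
  exact TS.mul_wt hq hD hf hg

theorem ap_cr_le {q : ℝ} {f : Fn} {c : ℤ} (hq : 100 ≤ q) (hD : DomOK D) (hc : -1 ≤ c)
    (hf : TS q D m n (wt q 0 0 c) f) : TS q D m n (wt q 0 0 (-1)) f :=
  TS.le_wt hq hD le_rfl hc (by simp only [sub_self, mul_zero, zero_add]; linarith) hf

theorem ap_cr_const {q : ℝ} (c : ℝ) : TS q D m n (wt q 0 0 0) (fun _ => c) :=
  TS.one_wt.1 (TS.const c)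

theorem ap_cr_y {q : ℝ} (hq : 100 ≤ q) (hD : DomOK D) : TS q D m n (wt q 0 0 0) (fun p => p.2) :=
  TS.one_wt.1 (TS.yfun (φ := fun y => y) hq hD contDiff_id)

theorem BP.ts_GAF (h : BP q w z) (hD : DomOK D) (hm : m ≤ 6) :
    TS q D m n (wt q 0 0 (-1)) (GAF q (bgA q w z)) := by
  have hq := h.hqR
  have hm7 : m ≤ 7 := by omega
  have Z : TS q D m n _ _ := h.gts_Z hD hm7
  have X : TS q D m n (wt q 0 0 1) (fun p => Xf p.2) := TS.X_rh hq hD
  have Y : TS q D m n (wt q 0 0 0) (fun p => p.2) := ap_cr_y hq hD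
  have dd : TS q D m n _ _ := h.gts_dd hD hm7
  have ap : TS q D m n _ _ := h.gts_ap hD hm7
  have wp : TS q D m n _ _ := h.ts_bgA_wp hD hm
  have W : TS q D m n _ _ := h.gts_W1 hD hm7
  have dYW : TS q D m n _ _ := h.gts_dYW hD hm7
  have DDw : TS q D m n _ _ := h.gts_DDw hD hm
  have Xwp := ap_cr_mul 0 hq hD X wp (by norm_num)
  -- term 1
  have a1 := ap_cr_le hq hD (by norm_num) (ap_cr_const (D := D) (m := m) (n := n) (q := q) (-2 * (q : ℝ)))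
  have a2 := TS.const_mul hD 2 DDw
  have a3 := ap_cr_mul (-1) hq hD Xwp wp (by norm_num)
  have T1 := ap_cr_mul (-1) hq hD Z ((a1.add hD a2).add hD a3) (by norm_num)
  -- term 2
  have b1 := ap_cr_mul (-1) hq hD (ap_cr_mul 0 hq hD Z Z (by norm_num)) dd (by norm_num)
  have b2 := (TS.const_mul hD (q : ℝ) Y).sub hD Xwp
  have T2 := ap_cr_mul (-1) hq hD b1 b2 (by norm_num)
  -- terms 3, 4, 5
  have T3 := ap_cr_mul (-1) hq hD (ap_cr_mul 0 hq hD X W (by norm_num)) ap (by norm_num)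
  have T4 := TS.const_mul hD 2 (ap_cr_mul (-1) hq hD X dYW (by norm_num))
  have T5 := TS.const_mul hD 2 (ap_cr_mul (-1) hq hD Y W (by norm_num))
  refine TS.congr hD (fun t _ y => ?_) ((((T1.add hD T2).add hD T3).add hD T4).sub hD T5)
  simp only [GAF, Bg.wp]
  ring

theorem BP.ts_GBF (h : BP q w z) (hD : DomOK D) (hm : m ≤ 6) :
    TS q D m n (wt q 0 0 (-1)) (GBF q (bgA q w z)) := by
  have hq := h.hqR
  have hm7 : m ≤ 7 := by omega
  have Z : TS q D m n _ _ := h.gts_Z hD hm7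
  have Y : TS q D m n (wt q 0 0 0) (fun p => p.2) := ap_cr_y hq hD
  have B : TS q D m n _ _ := h.gts_B hD hm7
  have dd : TS q D m n _ _ := h.gts_dd hD hm7
  have wp : TS q D m n _ _ := h.ts_bgA_wp hD hm
  have W : TS q D m n _ _ := h.gts_W1 hD hm7
  have YZ := ap_cr_mul 0 hq hD Y Z (by norm_num)
  have T1 := TS.const_mul hD (2 * ((q : ℝ) - 1)) (ap_cr_mul (-1) hq hD B Z (by norm_num))
  have T2 := ap_cr_le hq hD (by norm_num) (TS.const_mul hD (2 * (q : ℝ)) Z)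
  have T3 := ap_cr_mul (-1) hq hD (ap_cr_mul 0 hq hD YZ Z (by norm_num)) dd (by norm_num)
  have T4 := TS.const_mul hD 2 (ap_cr_mul (-1) hq hD YZ wp (by norm_num))
  have T5 := TS.const_mul hD 2 (ap_cr_mul (-1) hq hD Y W (by norm_num))
  refine TS.congr hD (fun t _ y => ?_) (TS.neg hD ((((T1.add hD T2).sub hD T3).add hD T4).add hD T5))
  simp only [GBF, Bg.wp]
  ring

theorem BP.ts_GCF (h : BP q w z) (hD : DomOK D) (hm : m ≤ 6) :
    TS q D m n (wt q 0 0 (-1)) (GCF q (bgA q w z)) := by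
  have hq := h.hqR
  have hm7 : m ≤ 7 := by omega
  have Z : TS q D m n _ _ := h.gts_Z hD hm7
  have X : TS q D m n (wt q 0 0 1) (fun p => Xf p.2) := TS.X_rh hq hD
  have Y : TS q D m n (wt q 0 0 0) (fun p => p.2) := ap_cr_y hq hD
  have ap : TS q D m n _ _ := h.gts_ap hD hm7
  have wp : TS q D m n _ _ := h.ts_bgA_wp hD hm
  have W : TS q D m n _ _ := h.gts_W1 hD hm7
  have ew : TS q D m n _ _ := h.ts_bgA_ew hD hm
  have DDw : TS q D m n _ _ := h.gts_DDw hD hm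
  have Xwp := ap_cr_mul 0 hq hD X wp (by norm_num)
  have a2 := TS.const_mul hD (1 / 2) (ap_cr_mul (-1) hq hD Xwp ap (by norm_num))
  have a3 := TS.const_mul hD (q : ℝ) (ap_cr_mul (-1) hq hD Y wp (by norm_num))
  have a4 := ap_cr_mul (-1) hq hD Xwp wp (by norm_num)
  have T1 := ap_cr_mul (-1) hq hD Z (((DDw.sub hD a2).sub hD a3).add hD a4) (by norm_num)
  have T2 := TS.const_mul hD 2 ew
  have T3 := ap_cr_mul (-1) hq hD Xwp W (by norm_num)
  refine TS.congr hD (fun t _ y => ?_) ((T1.sub hD T2).add hD T3)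
  simp only [GCF, Bg.wp]
  ring

theorem BP.ap_ts_XZdTB (h : BP q w z) (hD : DomOK D) (hm : m ≤ 5) :
    TS q D m n (wt q 0 0 (-1))
      (fun p => Xf p.2 * (bgA q w z).Z p * dT (bgA q w z).B p) := by
  have hq := h.hqR
  have Z : TS q D m n _ _ := h.gts_Z hD (by omega : m ≤ 7)
  have X : TS q D m n (wt q 0 0 1) (fun p => Xf p.2) := TS.X_rh hq hD
  have dTB : TS q D m n _ _ := h.gts_dTB1 hD hm
  exact ap_cr_mul (-1) hq hD (ap_cr_mul 1 hq hD X Z (by norm_num)) dTB (by norm_num)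

theorem BP.ts_Res0c (h : BP q w z) (hD : DomOK D) (hm : m ≤ 5) :
    TS q D m n (wt q 0 0 (-1)) (Res q (bgA q w z) 0) := by
  have hm6 : m ≤ 6 := by omega
  have T := ((h.ap_ts_XZdTB hD hm (n := n)).sub hD (h.ts_GAF hD hm6)).sub hD
    (TS.const_mul hD (q : ℝ) (h.ts_GBF hD hm6))
  refine TS.congr hD (fun t _ y => ?_) (TS.const_mul hD (1 / ((q : ℝ) + 1)) T)
  simp only [Res, Matrix.cons_val_zero]
  ring

theorem BP.ts_Res1c (h : BP q w z) (hD : DomOK D) (hm : m ≤ 5) :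
    TS q D m n (wt q 0 0 (-1)) (Res q (bgA q w z) 1) := by
  have hm6 : m ≤ 6 := by omega
  refine TS.congr hD (fun t _ y => ?_) ((h.gts_dTw1 hD hm6).sub hD (h.ts_GCF hD hm6))
  simp [Res]

theorem BP.ts_XRes2c (h : BP q w z) (hD : DomOK D) (hm : m ≤ 5) :
    TS q D m n (wt q 0 0 (-1)) (fun p => Xf p.2 * Res q (bgA q w z) 2 p) := by
  have hm6 : m ≤ 6 := by omega
  refine TS.congr hD (fun t ht y => ?_)
    ((h.ap_ts_XZdTB hD hm).sub hD ((h.ts_GAF hD hm6).sub hD (h.ts_GBF hD hm6)))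
  have e := X_mul_GbF (q : ℝ) h.bgA_sm ht y
  have e2 : Res q (bgA q w z) 2 (t, y)
      = (bgA q w z).Z (t, y) * dT (bgA q w z).B (t, y) - GbF q (bgA q w z) (t, y) := by
    simp [Res]
  show Xf y * Res q (bgA q w z) 2 (t, y) = _
  rw [e2]
  simp only
  rw [← e]
  ring

/-- a weight-type expression on a compact box of positive numbers lies between two positive constants. -/
theorem ap_wt_box (s : ℝ) (a : ℕ) (b c : ℤ) {l u l' u' : ℝ} (hl : 0 < l) (hl' : 0 < l') :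
    ∃ k K : ℝ, 0 < k ∧ 0 < K ∧ ∀ R ∈ Icc l u, ∀ T ∈ Icc l' u',
      k ≤ (R ^ s) ^ a * T ^ b * R ^ c ∧ (R ^ s) ^ a * T ^ b * R ^ c ≤ K := by
  set S : Set (ℝ × ℝ) := Icc l u ×ˢ Icc l' u' with hS
  have hK : IsCompact S := isCompact_Icc.prod isCompact_Icc
  have hpos1 : ∀ x ∈ S, 0 < x.1 := fun x hx => lt_of_lt_of_le hl hx.1.1
  have hpos2 : ∀ x ∈ S, 0 < x.2 := fun x hx => lt_of_lt_of_le hl' hx.2.1
  have hc : ContinuousOn (fun x : ℝ × ℝ => (x.1 ^ s) ^ a * x.2 ^ b * x.1 ^ c) S := by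
    refine ContinuousOn.mul (ContinuousOn.mul (ContinuousOn.pow ?_ a) ?_) ?_
    · exact ContinuousOn.rpow_const continuous_fst.continuousOn (fun x hx => Or.inl (hpos1 x hx).ne')
    · exact ContinuousOn.zpow₀ continuous_snd.continuousOn b (fun x hx => Or.inl (hpos2 x hx).ne')
    · exact ContinuousOn.zpow₀ continuous_fst.continuousOn c (fun x hx => Or.inl (hpos1 x hx).ne')
  have hp : ∀ x ∈ S, 0 < (x.1 ^ s) ^ a * x.2 ^ b * x.1 ^ c := fun x hx =>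
    mul_pos (mul_pos (pow_pos (Real.rpow_pos_of_pos (hpos1 x hx) _) _) (zpow_pos (hpos2 x hx) _))
      (zpow_pos (hpos1 x hx) _)
  rcases S.eq_empty_or_nonempty with he | hne
  · refine ⟨1, 1, one_pos, one_pos, fun R hR T hT => ?_⟩
    have : ((R, T) : ℝ × ℝ) ∈ S := ⟨hR, hT⟩
    rw [he] at this
    exact absurd this (Set.notMem_empty _)
  · obtain ⟨x₀, hx₀, hmin⟩ := hK.exists_isMinOn hne hc
    obtain ⟨x₁, hx₁, hmax⟩ := hK.exists_isMaxOn hne hc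
    refine ⟨_, _, hp x₀ hx₀, hp x₁ hx₁, fun R hR T hT => ?_⟩
    have hm : ((R, T) : ℝ × ℝ) ∈ S := ⟨hR, hT⟩
    exact ⟨isMinOn_iff.1 hmin _ hm, isMaxOn_iff.1 hmax _ hm⟩

theorem wt_le_south {q : ℝ} (hq : 100 ≤ q) (a a' : ℕ) (b b' c c' : ℤ) :
    ∃ K : ℝ, 0 ≤ K ∧ ∀ D : Set (ℝ × ℝ), DomOK D → (∀ p ∈ D, p.2 ≤ 19 / 20) →
      ∀ p ∈ D, wt q a b c p ≤ K * wt q a' b' c' p := by
  obtain ⟨_, K₁, _, hK₁, H₁⟩ := ap_wt_box (-(alF q) / 2) a b c (l := 39 / 400)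
    (u := (q - 1) / 100 + 1) (l' := 39 / 400) (u' := 2) (by norm_num) (by norm_num)
  obtain ⟨k₂, _, hk₂, _, H₂⟩ := ap_wt_box (-(alF q) / 2) a' b' c' (l := 39 / 400)
    (u := (q - 1) / 100 + 1) (l' := 39 / 400) (u' := 2) (by norm_num) (by norm_num)
  refine ⟨K₁ / k₂, (div_pos hK₁ hk₂).le, fun D hD hS p hp => ?_⟩
  obtain ⟨_, _, h3, _⟩ := hD p hp
  have hX : 39 / 400 ≤ Xt p.2 := by
    rcases le_total (1 / 2) p.2 with hy | hy
    · rw [Xt_eq hy]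
      have := hS p hp
      unfold Xf
      nlinarith
    · have := (Xt_mem hy h3).1
      linarith
  have hR : rh2 q p.1 p.2 ∈ Icc (39 / 400 : ℝ) ((q - 1) / 100 + 1) :=
    ⟨hX.trans (ap_Xt_le_rh2 hq hD hp), rh2_le_dom hq hD hp⟩
  have hT : Th p.1 p.2 ∈ Icc (39 / 400 : ℝ) 2 := ⟨hX.trans (ap_Xt_le_Th hD hp), Th_le_dom hD hp⟩
  have h1 : wt q a b c p ≤ K₁ := (H₁ _ hR _ hT).2
  have h2 : k₂ ≤ wt q a' b' c' p := (H₂ _ hR _ hT).1
  calc wt q a b c p ≤ K₁ := h1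
    _ = K₁ / k₂ * k₂ := by field_simp
    _ ≤ K₁ / k₂ * wt q a' b' c' p := mul_le_mul_of_nonneg_left h2 (div_pos hK₁ hk₂).le

end

end Claimed.Agent.R324.Core
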