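/-
Row 324 (S0582), PDE core, module AP (architect helper263), residual (A8), file Res/Id1 (components 0 and 2):   THE RESIDUAL OF  g = bgA q w z  EQUALS ITS REGULAR FORM ON THE OPEN NORTHERN STRIP (t < 0, 19/20 < y < 1).
      Res q g = ![ (X Z ∂_t B - GAF - q GBF)/(q+1),   ∂_t w - GCF,   Z ∂_t B - GbF ]     (Core/Defs.lean).       X = Xf y ∈ (0,1),  Λ = -t,  Y = YF (t,y) = X/Λ (so X = Y Λ),  Ξ = XiF q (t,y) > 0.
      Ingredients:   IdG (`resN_A, resN_B, resN_C`),  JetG (`jg_dTw, jg_dTB`),  JetW, JetZ (th-jets and Λ ∂_t of w_tip, ζ),  Prof (`prof_W, prof_Z2`),  Rec (`recW, recZ, gaF_mul_alF, z0F_mul, bKz_pos`, `z0F_pos`),  RegX (`X_R3lin, X_R3non, X_R1lin, X_R1non, zT_eq`),  Alg (`ap_alg_E3, ap_alg_E1`),  `X_mul_GbF` (PR/Id.lean),  `BP.bgA_sm` (BgA1).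

      MODEL: the proof of `res1_strip` in Res/Id.lean (same pattern).    It suffices to prove the identity multiplied by X (X ≠ 0: `mul_left_cancel₀`).
* `E1_strip`:    the same with `ap_alg_E1`:     -X (X Z ∂_t B - GAF) = X ∂_t ζ + X GAF  (`jg_dTB`),   X ∂_t ζ = Y (Λ ∂_t ζ) (`dTL_zeF`),  `resN_A`, `thF_zeF`, `thF2_zeF`, `thF_wtip`;      hypotheses `prof_Z2` (Ξ > 0), `recZ`, kz = bKz q ≠ 0, z0 ≠ 0.
* `res0_strip`:  GBF = 0 (`resN_B`).          `res2_strip`:  X Res₂ = X Z ∂_t B - X GbF = X Z ∂_t B - (GAF - GBF)  (`X_mul_GbF`).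
-/
import Claimed.Agent.R324.Core.AP.Res.Id

set_option autoImplicit false

namespace Claimed.Agent.R324.Core

open Set Filter Topology
open scoped ContDiff

noncomputable section

variable {t y : ℝ} {q : ℕ} {w z : ℝ → ℝ}

theorem BP.E1_strip (h : BP q w z) (ht : t < 0) (hy : y ∈ Ioo (19 / 20 : ℝ) 1) :
    Xf y * (bgA q w z).Z (t, y) * dT (bgA q w z).B (t, y) - GAF q (bgA q w z) (t, y)
      = -R1reg q w z (t, y) := by
  have hy0 : y ≠ 0 := ap_y_ne_strip hy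
  have hXpos : 0 < Xf y := ap_Xf_pos_strip hy
  have hΞ := XiF_pos_strip (q : ℝ) ht hy
  have hqR := h.hqR
  apply mul_left_cancel₀ hXpos.ne'
  have hreg : R1reg q w z (t, y) = R1lin q w z (t, y) - R1non q w z (t, y) := rfl
  have hE : Real.exp (zeF q z (t, y)) = z (XiF q (t, y)) * Real.exp (uZF q z (t, y)) := h.zT_eq ht y
  have h1 : Xf y * dT (zeF q z) (t, y) = YF (t, y) * ((-t) * dT (zeF q z) (t, y)) := by
    rw [← mul_assoc, ← ap_X_eq_Y_mul ht y]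
  have h3 := ap_alg_E1 q (gaF q) (alF q) (z0F q) (bKz q) (YF (t, y)) (z (XiF q (t, y)))
    (Real.exp (uZF q z (t, y))) (th w (XiF q (t, y))) (bJ w (XiF q (t, y)))
    (th (bJ w) (XiF q (t, y))) (bJa z (XiF q (t, y))) (th (bJa z) (XiF q (t, y)))
    (th (th (bJa z)) (XiF q (t, y))) (polA (aW q) (YF (t, y))) (polA (cTh (aW q)) (YF (t, y)))
    (polA (aZ q) (YF (t, y))) (polA (cTh (aZ q)) (YF (t, y))) (polA (cTh (cTh (aZ q))) (YF (t, y)))
    (gaF_mul_alF hqR) (z0F_mul hqR) rfl (bKz_pos hqR).ne' (z0F_pos (by linarith)).ne'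
    (h.prof_Z2 hΞ) (recZ hqR _)
  rw [h.jg_dTB ht hy, hreg, mul_sub, mul_neg, mul_neg, mul_sub, h.X_R1lin ht y, h.X_R1non ht y,
    h.resN_A ht hy, h.thF_wtip ht hy0, h.thF_zeF ht hy0, h.thF2_zeF ht hy0, h1, h.dTL_zeF ht y, hE]
  linear_combination (-1) * h3

theorem BP.res0_strip (h : BP q w z) (ht : t < 0) (hy : y ∈ Ioo (19 / 20 : ℝ) 1) :
    Res q (bgA q w z) 0 (t, y) = -R1reg q w z (t, y) / ((q : ℝ) + 1) := by
  have hR : Res q (bgA q w z) 0 (t, y)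
      = (Xf y * (bgA q w z).Z (t, y) * dT (bgA q w z).B (t, y) - GAF q (bgA q w z) (t, y)
          - q * GBF q (bgA q w z) (t, y)) / ((q : ℝ) + 1) := rfl
  rw [hR, h.resN_B ht hy, h.E1_strip ht hy, mul_zero, sub_zero]

theorem BP.res2_strip (h : BP q w z) (ht : t < 0) (hy : y ∈ Ioo (19 / 20 : ℝ) 1) :
    Xf y * Res q (bgA q w z) 2 (t, y) = -R1reg q w z (t, y) := by
  have hR : Res q (bgA q w z) 2 (t, y)
      = (bgA q w z).Z (t, y) * dT (bgA q w z).B (t, y) - GbF q (bgA q w z) (t, y) := rfl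
  rw [hR, mul_sub, X_mul_GbF q h.bgA_sm ht y, h.resN_B ht hy, ← h.E1_strip ht hy]
  ring

end

end Claimed.Agent.R324.Core
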