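/-
Row 324 (S0582), PDE core, module AP (architect helper263), residual (A8), file Res/TsB:   SYMBOL BOUNDS OF THE BUILDING BLOCKS OF THE REGULAR FORM (z_tip and the compositions).       D admissible and northern (`DomOK D`, `DomN D`), n arbitrary, m ≤ 7.
      Definitions: Res/Reg.lean, Core/AP/Defs.lean.      𝔍 = wt 1 8 0.
      Tools:  `BP.ts_cmp1` (TipC2):  F ∈ IsSymb J ⟹ F(Ξ) ∈ TS (wt 1 8 0);    `ts_z, ts_P, ts_Q` (TipC2): z(Ξ), P(Ξ), (th w)(Ξ) ∈ wt 0 0 0;    `ts_uZF, ts_uWF` (TipD): v, u ∈ wt 1 8 0;    `ts_zeF` (TipE);    `TS.comp` (Cal/CompA; needs weight 1: `TS.one_wt`), `TS.le_wt`, `TS.mul_wt`, `TS.congr`;   `ph1_contDiff, ph2_contDiff, ph1_mul` (PR/Ph.lean).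

* `ts_eta`:     η = (log z(Ξ) - log z₀) + v;   first term: `ts_cmp1` with `symb_logz1` (z₀ = (q-1)/(q+1) = z0F q: unfold z0F);   v: `ts_uZF`.
* `ts_zT`:      exp ∘ ζ, `ts_zeF`, `TS.comp`.
* `ts_zT_sub`:  for t < 0:  ζ = log z(Ξ) + v (`zeF_prd`, `uZF_prd`), so  exp ζ - z₀ = z₀ (exp η - 1) = z₀ η Ph1(-η)     (exp(log z₀) = z₀ > 0;   `ph1_mul (-η)`: -η Ph1(-η) = 1 - exp η);      η ∈ wt 1 8 0 ≤ K wt 0 0 0 (`TS.le_wt`), so Ph1(-η) ∈ TS 1 (`TS.comp` with Ψ s = Ph1 (-s));    product ∈ wt 1 8 0;  `TS.congr`.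
* `ts_P_sub`:   `ts_cmp1` with `symb_P1`.          `ts_thJ_c`:  `ts_cmp1` with th J ∈ IsSymb J (`(slow_th slow_J).1`/`apply_th`).         `ts_Ja_c`, `ts_J_c`:  `ts_cmp1` with `prof_Ja`, `symb_J`.
* `ts_zTQ`:     zT Q - 2 z₀ = (zT - z₀) Q - z₀ J(Ξ)   (J = 2 - Q);   wt 1 8 0.
* `ts_ph`:      Ψ smooth, f ∈ wt 1 8 0  ⟹  Ψ(f) ∈ wt 0 0 0   (`TS.le_wt`, `TS.one_wt`, `TS.comp`).     Used for Ph1(-v), Ph2(-v), Ph2(u).
-/
import Claimed.Agent.R324.Core.AP.Res.TsA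
import Claimed.Agent.R324.Core.AP.Res.JetT

set_option autoImplicit false

namespace Claimed.Agent.R324.Core

open Set Filter Topology
open scoped ContDiff

noncomputable section

variable {D : Set (ℝ × ℝ)} {m n : ℕ} {q : ℕ} {w z : ℝ → ℝ}

/-- `η = ζ - log z₀`. -/
def etaF (q : ℝ) (z : ℝ → ℝ) : Fn := fun p =>
  (Real.log (z (XiF q p)) - Real.log (z0F q)) + uZF q z p

/-- hygiene. -/
theorem core_ap_tsB_hygiene : True := by
  have := @etaF.eq_1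
  trivial

/-- `Ψ(f) ∈ wt 0 0 0` for smooth `Ψ` and `f ∈ wt 1 8 0` (= `ts_ph`, needed earlier). -/
theorem ap_tsB_ph {q : ℝ} (hq : 100 ≤ q) (hD : DomOK D) {Ψ : ℝ → ℝ} (hΨ : ContDiff ℝ ∞ Ψ) {f : Fn}
    (hf : TS q D m n (wt q 1 8 0) f) : TS q D m n (wt q 0 0 0) (fun p => Ψ (f p)) := by
  have h1 : TS q D m n (wt q 0 0 0) f :=
    TS.le_wt (a := 0) (a' := 1) (b := 0) (b' := 8) (c := 0) (c' := 0) hq hD (by norm_num) le_rfl (by norm_num) hf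
  exact TS.one_wt.1 (TS.comp hD hΨ (TS.one_wt.2 h1))

theorem ap_tsB_z0_pos {q : ℝ} (hq : 100 ≤ q) : 0 < z0F q := by
  unfold z0F
  exact div_pos (by linarith) (by linarith)

theorem BP.ts_eta (h : BP q w z) (hD : DomOK D) (hN : DomN D) (hm : m ≤ 7) :
    TS q D m n (wt q 1 8 0) (etaF q z) := by
  have h1 := h.ts_cmp1 (D := D) (m := m) (n := n) hD hN hm (h.bohm.symb_logz1 h.hq h.pos)
  have h2 := h.ts_uZF (D := D) (m := m) (n := n) hD hN hm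
  exact TS.add hD h1 h2

theorem BP.ts_zT (h : BP q w z) (hD : DomOK D) (hN : DomN D) (hm : m ≤ 7) :
    TS q D m n (wt q 0 0 0) (zT q z) :=
  TS.one_wt.1 (TS.comp hD Real.contDiff_exp (TS.one_wt.2 (h.ts_zeF hD hN hm)))

/-- `exp ζ - z₀ = z₀ η Ph1(-η)` for `t < 0`. -/
theorem BP.ap_tsB_zT_sub_eq (h : BP q w z) {t : ℝ} (ht : t < 0) (y : ℝ) :
    zT q z (t, y) - z0F q = z0F q * (etaF q z (t, y) * Ph1 (-(etaF q z (t, y)))) := by
  have hz0 := ap_tsB_z0_pos h.hqR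
  have h1 : zeF q z (t, y) = Real.log (z0F q) + etaF q z (t, y) := by
    rw [h.zeF_prd ht y, ← uZF_prd (q : ℝ) z ht y]
    unfold etaF
    ring
  have h2 := ph1_mul (-(etaF q z (t, y)))
  rw [neg_neg] at h2
  unfold zT
  rw [h1, Real.exp_add, Real.exp_log hz0]
  have h3 : etaF q z (t, y) * Ph1 (-(etaF q z (t, y))) = Real.exp (etaF q z (t, y)) - 1 := by linarith
  rw [h3]
  ring

theorem BP.ts_zT_sub (h : BP q w z) (hD : DomOK D) (hN : DomN D) (hm : m ≤ 7) :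
    TS q D m n (wt q 1 8 0) (fun p => zT q z p - z0F q) := by
  have h1 := h.ts_eta (D := D) (m := m) (n := n) hD hN hm
  have hΨ : ContDiff ℝ ∞ (fun s : ℝ => Ph1 (-s)) := ph1_contDiff.comp contDiff_neg
  have h2 := ap_tsB_ph h.hqR hD hΨ h1
  have h3 := TS.const_mul hD (z0F q) (TS.mul_wt h.hqR hD h1 h2)
  exact TS.congr hD (fun t ht y => h.ap_tsB_zT_sub_eq ht y) h3

theorem BP.ts_P_sub (h : BP q w z) (hD : DomOK D) (hN : DomN D) (hm : m ≤ 7) :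
    TS q D m n (wt q 1 8 0) (fun p => bP w (XiF q p) - ((q : ℝ) - 1)) :=
  h.ts_cmp1 hD hN hm (h.bohm.symb_P1 h.hq)

theorem BP.ts_thJ_c (h : BP q w z) (hD : DomOK D) (hN : DomN D) (hm : m ≤ 7) :
    TS q D m n (wt q 1 8 0) (fun p => th (bJ w) (XiF q p)) :=
  h.ts_cmp1 hD hN hm
    ((h.bohm.symb_J h.hq).apply_th fun Ξ hΞ => (h.bohm.J_bounds h.hq Ξ hΞ).1.le)

theorem BP.ts_J_c (h : BP q w z) (hD : DomOK D) (hN : DomN D) (hm : m ≤ 7) :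
    TS q D m n (wt q 1 8 0) (fun p => bJ w (XiF q p)) :=
  h.ts_cmp1 hD hN hm (h.bohm.symb_J h.hq)

theorem BP.ts_Ja_c (h : BP q w z) (hD : DomOK D) (hN : DomN D) (hm : m ≤ 7) :
    TS q D m n (wt q 1 8 0) (fun p => bJa z (XiF q p)) :=
  h.ts_cmp1 hD hN hm h.prof_Ja

theorem BP.ts_zTQ (h : BP q w z) (hD : DomOK D) (hN : DomN D) (hm : m ≤ 7) :
    TS q D m n (wt q 1 8 0) (fun p => zT q z p * th w (XiF q p) - 2 * z0F q) := by
  have h1 := h.ts_zT_sub (D := D) (m := m) (n := n) hD hN hm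
  have h2 := h.ts_Q (D := D) (m := m) (n := n) hD hN hm
  have h3 := h.ts_J_c (D := D) (m := m) (n := n) hD hN hm
  have h4 := TS.sub hD (TS.mul_wt h.hqR hD h1 h2) (TS.const_mul hD (z0F q) h3)
  refine TS.congr hD (fun t _ y => ?_) h4
  unfold bJ
  ring

theorem ts_ph {q : ℝ} (hq : 100 ≤ q) (hD : DomOK D) {Ψ : ℝ → ℝ} (hΨ : ContDiff ℝ ∞ Ψ) {f : Fn}
    (hf : TS q D m n (wt q 1 8 0) f) : TS q D m n (wt q 0 0 0) (fun p => Ψ (f p)) :=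
  ap_tsB_ph hq hD hΨ hf

end

end Claimed.Agent.R324.Core
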