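/-
Row 324 (S0582), PDE core, module AP (architect helper263), residual (A8), file Res/TsC:   THE REGULAR FORMS ARE  O(𝔍²/Θ) = wt 2 15 0.       D admissible and northern (`DomOK D`, `DomN D`), n arbitrary, m ≤ 7.
      Definitions: Res/Reg.lean.      Blocks: Res/TsA.lean, Res/TsB.lean, TipD (`ts_hPol` ∈ wt 0 7 0, `ts_uW1, ts_uZ1` ∈ wt 1 7 0, `ts_uWF, ts_uZF` ∈ wt 1 8 0), TipC2 (`ts_z, ts_P, ts_Q` ∈ wt 0 0 0), `TS.X_Th` (X ∈ wt 0 1 0).
      Algebra: `TS.mul_wt` (weights add: wt (a+a') (b+b') (c+c')), `TS.add, TS.sub, TS.neg, TS.const_mul, TS.congr` (reshape the formula; it holds at every point);  exponent arithmetic by `norm_num`/`show`/`ap_ts_cast` (TipG).       f^2 = f * f (`pow_two`).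

WEIGHTS OF THE TERMS.
* `ts_R3lin`:   atm 9 ε (2,7,0) × X (0,1,0) × hPol (0,7,0);        atm 8 ε, atm 8 (th ε) (2,8,0) × hPol (0,7,0).        [ε = epsJ ∈ IsSymb J²: `symb_epsJ`;  th ε: `IsSymb.apply_th`.]
* `ts_R3non`:   (zT - z₀) (1,8,0) × thP2 (1,7,0);      (P - n) (1,8,0) × uW1 (1,7,0);      z(Ξ) (0,0,0) × uZ1 (1,7,0) × Ph1(-v) (0,0,0) × (th J)(Ξ) (1,8,0);      P(Ξ) (0,0,0) × X (0,1,0) × uW1² (2,14,0) × Ph2(u) (0,0,0).
* `ts_R1lin`:   as R3lin with ε_a = epsA, ε₁ = eps1.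
* `ts_R1non`:   X (0,1,0) × uZ1² (2,14,0) × Ph2(-v);      J_a(Ξ) (1,8,0) × uZ1 (1,7,0) × Ph1(-v);      (zT - z₀) (1,8,0) × (thP2 - 2 thP1) (1,7,0);      (zT Q - 2z₀) (1,8,0) × thP1 (1,7,0);      zT (0,0,0) × [ J_a(Ξ) (1,8,0) × thP1 (1,7,0),   X (0,1,0) × thP1² (2,14,0) ].
-/
import Claimed.Agent.R324.Core.AP.Res.TsB

set_option autoImplicit false

namespace Claimed.Agent.R324.Core

open Set Filter Topology
open scoped ContDiff

noncomputable section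

variable {D : Set (ℝ × ℝ)} {m n : ℕ} {q : ℕ} {w z : ℝ → ℝ}

theorem BP.ts_R3lin (h : BP q w z) (hD : DomOK D) (hN : DomN D) (hm : m ≤ 7) :
    TS q D m n (wt q 2 15 0) (R3lin q w) := by
  have hq := h.hqR
  have hε := h.symb_epsJ
  have hε' : IsSymb (fun x => bJ w x ^ 2) (th (epsJ q w)) := hε.apply_th (fun Ξ _ => sq_nonneg _)
  have a9 := h.ts_sq9 (m := m) (n := n) hD hN hm hε
  have a8 := h.ts_sq8 (m := m) (n := n) hD hN hm hε
  have a8' := h.ts_sq8 (m := m) (n := n) hD hN hm hε'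
  have hX := TS.X_Th (m := m) (n := n) hq hD
  have hP : ∀ c, TS q D m n (wt q 0 7 0) (hPol c) := ts_hPol hq hD
  have t1 : TS q D m n (wt q 2 15 0) (fun p => atm q 9 (epsJ q w) p * (Xf p.2 * hPol (aW q) p)) :=
    ap_ts_cast (by norm_num) (by norm_num) (by norm_num) (TS.mul_wt hq hD a9 (TS.mul_wt hq hD hX (hP _)))
  have t2 : TS q D m n (wt q 2 15 0) (fun p => atm q 8 (epsJ q w) p
      * (2 * hPol (cTh (aW q)) p + (((q : ℝ) + 1) - alF q) * hPol (aW q) p)) :=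
    ap_ts_cast (by norm_num) (by norm_num) (by norm_num)
      (TS.mul_wt hq hD a8 (TS.add hD (TS.const_mul hD 2 (hP _)) (TS.const_mul hD _ (hP _))))
  have t3 : TS q D m n (wt q 2 15 0) (fun p => atm q 8 (th (epsJ q w)) p * hPol (aW q) p) :=
    ap_ts_cast (by norm_num) (by norm_num) (by norm_num) (TS.mul_wt hq hD a8' (hP _))
  exact TS.sub hD (TS.const_mul hD _ t1) (TS.const_mul hD _ (TS.add hD t2 t3))

theorem BP.ts_R3non (h : BP q w z) (hD : DomOK D) (hN : DomN D) (hm : m ≤ 7) :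
    TS q D m n (wt q 2 15 0) (R3non q w z) := by
  have hq := h.hqR
  have hX := TS.X_Th (m := m) (n := n) hq hD
  have hW1 := h.ts_uW1 (m := m) (n := n) hD hN hm
  have hZ1 := h.ts_uZ1 (m := m) (n := n) hD hN hm
  have hph1 : TS q D m n (wt q 0 0 0) (fun p => Ph1 (-uZF q z p)) :=
    ts_ph (Ψ := fun s => Ph1 (-s)) hq hD (ph1_contDiff.comp contDiff_neg) (h.ts_uZF hD hN hm)
  have hph2 : TS q D m n (wt q 0 0 0) (fun p => Ph2 (uWF q w p)) :=
    ts_ph hq hD ph2_contDiff (h.ts_uWF hD hN hm)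
  have s1 : TS q D m n (wt q 2 15 0) (fun p => -(zT q z p - z0F q) * thP2 q (bJ w) (aW q) p) :=
    ap_ts_cast (by norm_num) (by norm_num) (by norm_num)
      (TS.mul_wt hq hD (TS.neg hD (h.ts_zT_sub hD hN hm)) (h.ts_thP2 hD hN hm h.slow_J _))
  have s2 : TS q D m n (wt q 2 15 0) (fun p => 2 * (bP w (XiF q p) - ((q : ℝ) - 1)) * uW1 q w p) :=
    ap_ts_cast (by norm_num) (by norm_num) (by norm_num)
      (TS.mul_wt hq hD (TS.const_mul hD 2 (h.ts_P_sub hD hN hm)) hW1)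
  have s3 : TS q D m n (wt q 2 15 0)
      (fun p => z (XiF q p) * (uZ1 q z p * Ph1 (-uZF q z p)) * th (bJ w) (XiF q p)) :=
    ap_ts_cast (by norm_num) (by norm_num) (by norm_num)
      (TS.mul_wt hq hD (TS.mul_wt hq hD (h.ts_z hD hN hm) (TS.mul_wt hq hD hZ1 hph1)) (h.ts_thJ_c hD hN hm))
  have hsq : TS q D m n (wt q 2 14 0) (fun p => uW1 q w p ^ 2) :=
    TS.congr hD (fun t _ y => pow_two _)
      (ap_ts_cast (by norm_num) (by norm_num) (by norm_num) (TS.mul_wt hq hD hW1 hW1))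
  have s4 : TS q D m n (wt q 2 15 0)
      (fun p => 2 * bP w (XiF q p) * (Xf p.2 * uW1 q w p ^ 2 * Ph2 (uWF q w p))) :=
    ap_ts_cast (by norm_num) (by norm_num) (by norm_num)
      (TS.mul_wt hq hD (TS.const_mul hD 2 (h.ts_P hD hN hm)) (TS.mul_wt hq hD (TS.mul_wt hq hD hX hsq) hph2))
  exact TS.add hD (TS.add hD (TS.sub hD s1 s2) s3) s4

theorem BP.ts_R3reg (h : BP q w z) (hD : DomOK D) (hN : DomN D) (hm : m ≤ 7) :
    TS q D m n (wt q 2 15 0) (R3reg q w z) :=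
  TS.add hD (h.ts_R3lin hD hN hm) (h.ts_R3non hD hN hm)

end

end Claimed.Agent.R324.Core
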