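/-
Row 324 (S0582), PDE core, module AP (architect helper263), residual (A8), file Res/TsD:   THE REGULAR FORM R1reg IS  O(𝔍²/Θ) = wt 2 15 0.       D admissible and northern (`DomOK D`, `DomN D`), n arbitrary, m ≤ 7.
      Definitions: Res/Reg.lean.      Blocks: Res/TsA.lean, Res/TsB.lean, TipD (`ts_hPol` ∈ wt 0 7 0, `ts_uW1, ts_uZ1` ∈ wt 1 7 0, `ts_uWF, ts_uZF` ∈ wt 1 8 0), TipC2 (`ts_z, ts_P, ts_Q` ∈ wt 0 0 0), `TS.X_Th` (X ∈ wt 0 1 0).
      Algebra: `TS.mul_wt` (weights add: wt (a+a') (b+b') (c+c')), `TS.add, TS.sub, TS.neg, TS.const_mul, TS.congr` (reshape the formula; it holds at every point);  exponent arithmetic by `norm_num`/`show`/`ap_ts_cast` (TipG).       f^2 = f * f (`pow_two`).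

WEIGHTS OF THE TERMS.
* `ts_R1lin`:   atm 9 ε_a (2,7,0) × X (0,1,0) × hPol (0,7,0);        atm 8 ε_a, atm 8 (th ε_a), atm 8 ε, atm 8 ε₁ (2,8,0) × hPol (0,7,0).        [`symb_epsA, symb_epsJ, symb_eps1`, `IsSymb.apply_th`; `ts_sq8, ts_sq9`.]
* `ts_R1non`:   X (0,1,0) × uZ1² (2,14,0) × Ph2(-v) (0,0,0);      J_a(Ξ) (1,8,0) × uZ1 (1,7,0) × Ph1(-v);      (zT - z₀) (1,8,0) × (thP2 - 2 thP1) (1,7,0);      (zT Q - 2z₀) (1,8,0) × thP1 (1,7,0);      zT (0,0,0) × [ J_a(Ξ) (1,8,0) × thP1 (1,7,0),   X (0,1,0) × thP1² (2,14,0) ].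
-/
import Claimed.Agent.R324.Core.AP.Res.TsB

set_option autoImplicit false

namespace Claimed.Agent.R324.Core

open Set Filter Topology
open scoped ContDiff

noncomputable section

variable {D : Set (ℝ × ℝ)} {m n : ℕ} {q : ℕ} {w z : ℝ → ℝ}

theorem ap_tsD_sq {q : ℝ} (hq : 100 ≤ q) (hD : DomOK D) {a : ℕ} {b c : ℤ} {f : Fn}
    (hf : TS q D m n (wt q a b c) f) : TS q D m n (wt q (a + a) (b + b) (c + c)) (fun p => f p ^ 2) :=
  TS.congr hD (fun _ _ _ => pow_two _) (TS.mul_wt hq hD hf hf)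

theorem ap_tsD_half {q : ℝ} (hD : DomOK D) {ϱ f : Fn}
    (hf : TS q D m n ϱ f) : TS q D m n ϱ (fun p => f p / 2) :=
  TS.congr hD (fun _ _ _ => by ring) (TS.const_mul hD (1 / 2) hf)

theorem BP.ts_R1lin (h : BP q w z) (hD : DomOK D) (hN : DomN D) (hm : m ≤ 7) :
    TS q D m n (wt q 2 15 0) (R1lin q w z) := by
  have hq := h.hqR
  have hP : ∀ c : ℕ → ℝ, TS q D m n (wt q 0 7 0) (hPol c) := fun c => ts_hPol hq hD c
  have hX : TS q D m n (wt q 0 1 0) (fun p => Xf p.2) := TS.X_Th hq hD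
  have hsq : ∀ Ξ : ℝ, 0 ≤ Ξ → 0 ≤ bJ w Ξ ^ 2 := fun _ _ => sq_nonneg _
  have A1 : TS q D m n (wt q 2 15 0)
      (fun p => gaF q * (atm q 9 (epsA q z) p * (Xf p.2 * hPol (aZ q) p))) :=
    TS.const_mul hD _ (ap_ts_cast (by norm_num) (by norm_num) (by norm_num)
      (TS.mul_wt hq hD (h.ts_sq9 hD hN hm h.symb_epsA) (TS.mul_wt hq hD hX (hP (aZ q)))))
  have A2a : TS q D m n (wt q 2 15 0)
      (fun p => atm q 8 (epsA q z) p
        * (2 * hPol (cTh (aZ q)) p + (((q : ℝ) + 1) - 2 - alF q) * hPol (aZ q) p)) :=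
    ap_ts_cast (by norm_num) (by norm_num) (by norm_num)
      (TS.mul_wt hq hD (h.ts_sq8 hD hN hm h.symb_epsA)
        (TS.add hD (TS.const_mul hD 2 (hP (cTh (aZ q)))) (TS.const_mul hD _ (hP (aZ q)))))
  have A2b : TS q D m n (wt q 2 15 0) (fun p => atm q 8 (th (epsA q z)) p * hPol (aZ q) p) :=
    ap_ts_cast (by norm_num) (by norm_num) (by norm_num)
      (TS.mul_wt hq hD (h.ts_sq8 hD hN hm (h.symb_epsA.apply_th hsq)) (hP (aZ q)))
  have A3 : TS q D m n (wt q 2 15 0) (fun p => atm q 8 (epsJ q w) p * hPol (aW q) p) :=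
    ap_ts_cast (by norm_num) (by norm_num) (by norm_num)
      (TS.mul_wt hq hD (h.ts_sq8 hD hN hm h.symb_epsJ) (hP (aW q)))
  have A4 : TS q D m n (wt q 2 15 0)
      (fun p => atm q 8 (eps1 q w z) p * (hPol (cTh (aW q)) p - alF q * hPol (aW q) p)) :=
    ap_ts_cast (by norm_num) (by norm_num) (by norm_num)
      (TS.mul_wt hq hD (h.ts_sq8 hD hN hm h.symb_eps1)
        (TS.sub hD (hP (cTh (aW q))) (TS.const_mul hD _ (hP (aW q)))))
  exact TS.sub hD (TS.add hD (TS.sub hD A1 (TS.const_mul hD (z0F q) (TS.add hD A2a A2b)))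
    (TS.const_mul hD (4 * z0F q) A3)) (TS.const_mul hD (4 * z0F q ^ 2 / bKz q) A4)

theorem BP.ts_R1non (h : BP q w z) (hD : DomOK D) (hN : DomN D) (hm : m ≤ 7) :
    TS q D m n (wt q 2 15 0) (R1non q w z) := by
  have hq := h.hqR
  have hX : TS q D m n (wt q 0 1 0) (fun p => Xf p.2) := TS.X_Th hq hD
  have hZ1 : TS q D m n (wt q 1 7 0) (uZ1 q z) := h.ts_uZ1 hD hN hm
  have hZF : TS q D m n (wt q 1 8 0) (uZF q z) := h.ts_uZF hD hN hm
  have hPh1 : TS q D m n (wt q 0 0 0) (fun p => Ph1 (-uZF q z p)) :=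
    ts_ph hq hD (Ψ := fun s => Ph1 (-s)) (ph1_contDiff.comp contDiff_neg) hZF
  have hPh2 : TS q D m n (wt q 0 0 0) (fun p => Ph2 (-uZF q z p)) :=
    ts_ph hq hD (Ψ := fun s => Ph2 (-s)) (ph2_contDiff.comp contDiff_neg) hZF
  have hJa : TS q D m n (wt q 1 8 0) (fun p => bJa z (XiF q p)) := h.ts_Ja_c hD hN hm
  have hA1 : TS q D m n (wt q 1 7 0) (thP1 q (bJa z) (aZ q)) := h.ts_thP1 hD hN hm h.slow_Ja _
  have hA2 : TS q D m n (wt q 1 7 0) (thP2 q (bJa z) (aZ q)) := h.ts_thP2 hD hN hm h.slow_Ja _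
  have hW1 : TS q D m n (wt q 1 7 0) (thP1 q (bJ w) (aW q)) := h.ts_thP1 hD hN hm h.slow_J _
  have hzT : TS q D m n (wt q 0 0 0) (zT q z) := h.ts_zT hD hN hm
  have B1 : TS q D m n (wt q 2 15 0) (fun p => Xf p.2 * uZ1 q z p ^ 2 * Ph2 (-uZF q z p)) :=
    ap_ts_cast (by norm_num) (by norm_num) (by norm_num)
      (TS.mul_wt hq hD (TS.mul_wt hq hD hX (ap_tsD_sq hq hD hZ1)) hPh2)
  have B2 : TS q D m n (wt q 2 15 0)
      (fun p => ((q : ℝ) - 1) * bJa z (XiF q p) * (uZ1 q z p * Ph1 (-uZF q z p))) :=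
    ap_ts_cast (by norm_num) (by norm_num) (by norm_num)
      (TS.mul_wt hq hD (TS.const_mul hD _ hJa) (TS.mul_wt hq hD hZ1 hPh1))
  have B3 : TS q D m n (wt q 2 15 0)
      (fun p => (zT q z p - z0F q) * (thP2 q (bJa z) (aZ q) p - 2 * thP1 q (bJa z) (aZ q) p)) :=
    ap_ts_cast (by norm_num) (by norm_num) (by norm_num)
      (TS.mul_wt hq hD (h.ts_zT_sub hD hN hm) (TS.sub hD hA2 (TS.const_mul hD 2 hA1)))
  have B4 : TS q D m n (wt q 2 15 0)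
      (fun p => 2 * (zT q z p * th w (XiF q p) - 2 * z0F q) * thP1 q (bJ w) (aW q) p) :=
    ap_ts_cast (by norm_num) (by norm_num) (by norm_num)
      (TS.mul_wt hq hD (TS.const_mul hD 2 (h.ts_zTQ hD hN hm)) hW1)
  have C1 : TS q D m n (wt q 2 15 0) (fun p => -bJa z (XiF q p) * thP1 q (bJa z) (aZ q) p) :=
    ap_ts_cast (by norm_num) (by norm_num) (by norm_num) (TS.mul_wt hq hD (TS.neg hD hJa) hA1)
  have C2 : TS q D m n (wt q 2 15 0) (fun p => Xf p.2 * thP1 q (bJa z) (aZ q) p ^ 2 / 2) :=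
    ap_tsD_half hD (ap_ts_cast (by norm_num) (by norm_num) (by norm_num)
      (TS.mul_wt hq hD hX (ap_tsD_sq hq hD hA1)))
  have C3 : TS q D m n (wt q 2 15 0) (fun p => Xf p.2 * thP1 q (bJ w) (aW q) p ^ 2) :=
    ap_ts_cast (by norm_num) (by norm_num) (by norm_num)
      (TS.mul_wt hq hD hX (ap_tsD_sq hq hD hW1))
  have B5 : TS q D m n (wt q 2 15 0)
      (fun p => zT q z p * (-bJa z (XiF q p) * thP1 q (bJa z) (aZ q) p
        + Xf p.2 * thP1 q (bJa z) (aZ q) p ^ 2 / 2 - Xf p.2 * thP1 q (bJ w) (aW q) p ^ 2)) :=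
    ap_ts_cast (by norm_num) (by norm_num) (by norm_num)
      (TS.mul_wt hq hD hzT (TS.sub hD (TS.add hD C1 C2) C3))
  exact TS.add hD (TS.sub hD (TS.add hD (TS.add hD (TS.const_mul hD (-2 * ((q : ℝ) - 1)) B1) B2) B3) B4) B5

theorem BP.ts_R1reg (h : BP q w z) (hD : DomOK D) (hN : DomN D) (hm : m ≤ 7) :
    TS q D m n (wt q 2 15 0) (R1reg q w z) :=
  TS.sub hD (h.ts_R1lin hD hN hm) (h.ts_R1non hD hN hm)

end

end Claimed.Agent.R324.Core
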