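/-
Row 324 (S0582), PDE core, module AP (architect helper263), residual (A8), file Res/Main:   ASSEMBLY OF  `BgRes q (bgA q w z)`.
      F₀ = Res q g 0,  F₁ = Res q g 1,  F₂ = X Res q g 2.       Claim:  F_k ∈ TS q D m n (wt 2 15 0) on every admissible D, m ≤ 5.        wt 2 15 0 = 𝔍²/Θ.
      D = D_S ∪ D_N,   D_S = D ∩ {y ≤ 19/20},   D_N = D ∩ {19/20 ≤ y} ⊆ Strip (19/20) 1   (Cal/Strip.lean);     `TY.union` (weights ≥ 0: `wt_pos`).

* `res_north`:   general pattern.   f Sm,  f = r on the OPEN strip (t < 0, 19/20 < y < 1),  r ∈ TS on northern domains  ⟹  f ∈ TY on D_N:      `strip_of_open` (19/20 < 1; f, r Sm) gives f = r on the closed strip;   `TY.congr_strip`;     D_N is admissible (`DomOK.subset`), northern (`domN_inter`), D_N ⊆ Strip: t < 0 and y ≤ 1 from hD.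
* `res_south`:   f ∈ TS (wt 0 0 (-1)) on D_S,  `wt_le_south`  ⟹  f ∈ TY (wt 2 15 0) on D_S  (`TY.mono_wt`).
* `ts_Res0`, `ts_Res1`, `ts_XRes2`:    Sm: `BgSm.smRes` (PR/SmBg.lean) with `BP.bgA_sm`, `sm_Xf.mul`;     north:  `res0_strip` (r = -R1reg/(q+1): `TS.const_mul`/`TS.neg` of `ts_R1reg`, reshape with `TS.congr`), `res1_strip` (r = R3reg), `res2_strip` (r = -R1reg);     south: `ts_Res0c, ts_Res1c, ts_XRes2c`.       D = D_S ∪ D_N (`le_total`), transport by `TY.subset`.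
* `wt_2_15`:     wt q 2 15 0 p = 𝔍²/Θ:   unfold wt JJ;  ((R^(-α/2))^2 Θ^15 = (Θ^8 R^(-α/2))²/Θ, Θ ≠ 0;  zpow_natCast/`zpow_ofNat`, zpow_zero).
* `dT_iter_X_mul`:  for i ≤ 1 (or all i by induction):  dT^[i] (X f) (t,y) = X dT^[i] f (t,y) for t < 0  (`dT_y_mul`; f Sm).
* `bgA_res`:     Λ₀ = 1,  D₁ = Dm 1 (Icc (-1) 1) (`domOK_Dm`);     `TS.tt_bound` (Cal/Conv.lean) for F_k with (i,j), i ≤ 1, j ≤ 2:   |tt^[j] (sl (dT^[i] F_k) t) y| ≤ C_{k,i,j} wt 2 15 0/Θ^i = C 𝔍²/Θ^(1+i)  (`wt_2_15`, `pow_succ`, div_div);    C = sum (or max) of the 18 constants (they are ≥ 0; 𝔍²/Θ^(1+i) ≥ 0);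
                 third component:  (fun z => X(z) dT^[i] (Res₂) (t,z)) = sl (dT^[i] F₂) t  (funext, `dT_iter_X_mul`).
-/
import Claimed.Agent.R324.Core.AP.Res.CrudeB
import Claimed.Agent.R324.Core.AP.Res.Id1
import Claimed.Agent.R324.Core.AP.Res.TsC
import Claimed.Agent.R324.Core.AP.Res.TsD
import Claimed.Agent.R324.Core.AP.Cal.Strip
import Claimed.Agent.R324.Core.AP.Cal.Conv

set_option autoImplicit false

namespace Claimed.Agent.R324.Core

open Set Filter Topology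
open scoped ContDiff

noncomputable section

variable {D : Set (ℝ × ℝ)} {m n : ℕ} {q : ℕ} {w z : ℝ → ℝ}

theorem res_north {q : ℝ} {ϱ f r : Fn} (hD : DomOK D) (hf : Sm f)
    (he : ∀ t < 0, ∀ y ∈ Ioo (19 / 20 : ℝ) 1, f (t, y) = r (t, y))
    (hr : ∀ D' : Set (ℝ × ℝ), DomOK D' → DomN D' → TS q D' m n ϱ r) :
    TY q (D ∩ {p | 19 / 20 ≤ p.2}) m n ϱ f := by
  have hD' : DomOK (D ∩ {p | (19 / 20 : ℝ) ≤ p.2}) := DomOK.subset hD inter_subset_left
  have hN : DomN (D ∩ {p | (19 / 20 : ℝ) ≤ p.2}) := domN_inter D (by norm_num)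
  have h1 := hr _ hD' hN
  have hab : (19 / 20 : ℝ) < 1 := by norm_num
  have hs : D ∩ {p | (19 / 20 : ℝ) ≤ p.2} ⊆ Strip (19 / 20) 1 := by
    rintro p ⟨hp, hy⟩
    obtain ⟨-, h2, -, h4⟩ := hD p hp
    exact ⟨h2, hy, h4⟩
  exact TY.congr_strip hab hs hf h1.sm (strip_of_open hab hf h1.sm he) h1.bd

theorem res_south {q : ℝ} (hq : 100 ≤ q) {f : Fn} (hD : DomOK D)
    (hf : TS q (D ∩ {p | p.2 ≤ 19 / 20}) m n (wt q 0 0 (-1)) f) :
    TY q (D ∩ {p | p.2 ≤ 19 / 20}) m n (wt q 2 15 0) f := by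
  obtain ⟨K, hK0, hK⟩ := wt_le_south hq 0 2 0 15 (-1) 0
  have hD' : DomOK (D ∩ {p | p.2 ≤ (19 / 20 : ℝ)}) := DomOK.subset hD inter_subset_left
  exact TY.mono_wt (by linarith) hD' hK0 (hK _ hD' (fun p hp => hp.2)) hf.bd

/-- north + south. -/
theorem ap_res_glue {q : ℝ} (hq : 100 ≤ q) {f r : Fn} (hD : DomOK D) (hf : Sm f)
    (he : ∀ t < 0, ∀ y ∈ Ioo (19 / 20 : ℝ) 1, f (t, y) = r (t, y))
    (hr : ∀ D' : Set (ℝ × ℝ), DomOK D' → DomN D' → TS q D' m n (wt q 2 15 0) r)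
    (hs : TS q (D ∩ {p | p.2 ≤ 19 / 20}) m n (wt q 0 0 (-1)) f) :
    TS q D m n (wt q 2 15 0) f := by
  refine ⟨hf, ?_⟩
  have h1 := res_north hD hf he hr
  have h2 := res_south hq hD hs
  have hU : DomOK ((D ∩ {p | p.2 ≤ (19 / 20 : ℝ)}) ∪ (D ∩ {p | (19 / 20 : ℝ) ≤ p.2})) :=
    DomOK.subset hD (union_subset inter_subset_left inter_subset_left)
  have h3 := TY.union (by linarith) hU (fun p hp => (wt_pos hq hU hp).le) h2 h1
  refine TY.subset ?_ h3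
  intro p hp
  rcases le_total p.2 (19 / 20) with h | h
  · exact Or.inl ⟨hp, h⟩
  · exact Or.inr ⟨hp, h⟩

theorem BP.ts_Res0 (h : BP q w z) (hD : DomOK D) (hm : m ≤ 5) :
    TS q D m n (wt q 2 15 0) (Res q (bgA q w z) 0) := by
  refine ap_res_glue (r := fun p => -R1reg q w z p / ((q : ℝ) + 1)) h.hqR hD (h.bgA_sm.smRes q 0)
    (fun t ht y hy => h.res0_strip ht hy) (fun D' hD' hN' => ?_)
    (h.ts_Res0c (DomOK.subset hD inter_subset_left) hm)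
  refine TS.congr hD' (fun t _ y => ?_)
    ((h.ts_R1reg (m := m) (n := n) hD' hN' (by omega)).const_mul hD' (-1 / ((q : ℝ) + 1)))
  ring

theorem BP.ts_Res1 (h : BP q w z) (hD : DomOK D) (hm : m ≤ 5) :
    TS q D m n (wt q 2 15 0) (Res q (bgA q w z) 1) := by
  exact ap_res_glue (r := R3reg q w z) h.hqR hD (h.bgA_sm.smRes q 1)
    (fun t ht y hy => h.res1_strip ht hy) (fun D' hD' hN' => h.ts_R3reg hD' hN' (by omega))
    (h.ts_Res1c (DomOK.subset hD inter_subset_left) hm)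

theorem BP.ts_XRes2 (h : BP q w z) (hD : DomOK D) (hm : m ≤ 5) :
    TS q D m n (wt q 2 15 0) (fun p => Xf p.2 * Res q (bgA q w z) 2 p) := by
  exact ap_res_glue (r := fun p => -R1reg q w z p) h.hqR hD (sm_Xf.mul (h.bgA_sm.smRes q 2))
    (fun t ht y hy => h.res2_strip ht hy)
    (fun D' hD' hN' => (h.ts_R1reg hD' hN' (by omega)).neg hD')
    (h.ts_XRes2c (DomOK.subset hD inter_subset_left) hm)

theorem wt_2_15 {q : ℝ} (hq : 100 ≤ q) (hD : DomOK D) {p : ℝ × ℝ} (hp : p ∈ D) :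
    wt q 2 15 0 p = (JJ q p.1 p.2) ^ 2 / Th p.1 p.2 := by
  have hT := Th_pos_dom hD hp
  unfold wt JJ
  rw [zpow_zero, mul_one]
  have e : (Th p.1 p.2) ^ (15 : ℤ) = (Th p.1 p.2) ^ 15 := by norm_cast
  rw [e]
  field_simp

theorem dT_iter_X_mul {f : Fn} (hf : Sm f) (i : ℕ) {t : ℝ} (ht : t < 0) (y : ℝ) :
    dT^[i] (fun p => Xf p.2 * f p) (t, y) = Xf y * dT^[i] f (t, y) := by
  induction i generalizing t y with
  | zero => rfl
  | succ i ih =>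
    rw [Function.iterate_succ_apply', Function.iterate_succ_apply']
    have h1 : dT (dT^[i] (fun p => Xf p.2 * f p)) (t, y)
        = dT (fun p => Xf p.2 * dT^[i] f p) (t, y) := dT_congr (fun s hs => ih hs y) ht
    rw [h1]
    exact dT_y_mul Xf (hf.dT_iter i) ht y

/-- one constant for the six derivatives. -/
theorem ap_tt_unif {q : ℝ} (hq : 100 ≤ q) (hD : DomOK D) {f : Fn} (h : TS q D 1 2 (wt q 2 15 0) f) :
    ∃ C : ℝ, 0 ≤ C ∧ ∀ p ∈ D, ∀ i ≤ 1, ∀ j ≤ 2,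
      |(tt^[j] (sl (dT^[i] f) p.1)) p.2| ≤ C * (JJ q p.1 p.2) ^ 2 / (Th p.1 p.2) ^ (1 + i) := by
  have key : ∀ i, i ≤ 1 → ∀ j, j ≤ 2 → ∃ C : ℝ, 0 ≤ C ∧ ∀ p ∈ D,
      |(tt^[j] (sl (dT^[i] f) p.1)) p.2| ≤ C * (JJ q p.1 p.2) ^ 2 / (Th p.1 p.2) ^ (1 + i) := by
    intro i hi j hj
    obtain ⟨C, hC0, hC⟩ := TS.tt_bound hq hD h hi hj
    refine ⟨C, hC0, fun p hp => ?_⟩
    have h1 := hC p hp
    have hT := Th_pos_dom hD hp
    rw [wt_2_15 hq hD hp] at h1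
    have e : C * ((JJ q p.1 p.2) ^ 2 / Th p.1 p.2) / (Th p.1 p.2) ^ i
        = C * (JJ q p.1 p.2) ^ 2 / (Th p.1 p.2) ^ (1 + i) := by
      rw [pow_add, pow_one]
      field_simp
    rw [e] at h1
    exact h1
  choose! Cf hCf using key
  have hle : ∀ i ≤ 1, ∀ j ≤ 2,
      Cf i j ≤ ∑ i' ∈ Finset.range 2, ∑ j' ∈ Finset.range 3, Cf i' j' := by
    intro i hi j hj
    have h1 : Cf i j ≤ ∑ j' ∈ Finset.range 3, Cf i j' :=
      Finset.single_le_sum (f := fun j' => Cf i j')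
        (fun j' hj' => (hCf i hi j' (by have := Finset.mem_range.1 hj'; omega)).1)
        (Finset.mem_range.2 (by omega))
    have h2 : ∑ j' ∈ Finset.range 3, Cf i j'
        ≤ ∑ i' ∈ Finset.range 2, ∑ j' ∈ Finset.range 3, Cf i' j' :=
      Finset.single_le_sum (f := fun i' => ∑ j' ∈ Finset.range 3, Cf i' j')
        (fun i' hi' => Finset.sum_nonneg (fun j' hj' =>
          (hCf i' (by have := Finset.mem_range.1 hi'; omega) j'
            (by have := Finset.mem_range.1 hj'; omega)).1))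
        (Finset.mem_range.2 (by omega))
    exact h1.trans h2
  refine ⟨∑ i' ∈ Finset.range 2, ∑ j' ∈ Finset.range 3, Cf i' j',
    (hCf 0 (by norm_num) 0 (by norm_num)).1.trans (hle 0 (by norm_num) 0 (by norm_num)),
    fun p hp i hi j hj => ?_⟩
  have hT := Th_pos_dom hD hp
  refine ((hCf i hi j hj).2 p hp).trans ?_
  exact div_le_div_of_nonneg_right (mul_le_mul_of_nonneg_right (hle i hi j hj) (sq_nonneg _))
    (pow_nonneg hT.le _)

theorem BP.bgA_res (h : BP q w z) : BgRes q (bgA q w z) := by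
  have hqR := h.hqR
  have hD : DomOK (Dm 1 (Icc (-1 : ℝ) 1)) := domOK_Dm le_rfl subset_rfl
  obtain ⟨C0, hC0, b0⟩ := ap_tt_unif hqR hD (h.ts_Res0 (m := 1) (n := 2) hD (by norm_num))
  obtain ⟨C1, hC1, b1⟩ := ap_tt_unif hqR hD (h.ts_Res1 (m := 1) (n := 2) hD (by norm_num))
  obtain ⟨C2, hC2, b2⟩ := ap_tt_unif hqR hD (h.ts_XRes2 (m := 1) (n := 2) hD (by norm_num))
  refine ⟨1, C0 + C1 + C2, one_pos, fun t ht y hy i hi j hj => ?_⟩
  have hp : ((t, y) : ℝ × ℝ) ∈ Dm 1 (Icc (-1 : ℝ) 1) := ⟨ht, hy⟩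
  have hT := Th_pos_dom hD hp
  have hmono : ∀ C : ℝ, C ≤ C0 + C1 + C2 →
      C * (JJ q t y) ^ 2 / (Th t y) ^ (1 + i) ≤ (C0 + C1 + C2) * (JJ q t y) ^ 2 / (Th t y) ^ (1 + i) :=
    fun C hC => div_le_div_of_nonneg_right (mul_le_mul_of_nonneg_right hC (sq_nonneg _))
      (pow_nonneg hT.le _)
  refine ⟨(b0 _ hp i hi j hj).trans (hmono C0 (by linarith)),
    (b1 _ hp i hi j hj).trans (hmono C1 (by linarith)), ?_⟩
  have e : (fun z' => Xf z' * dT^[i] (Res q (bgA q w z) 2) (t, z'))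
      = sl (dT^[i] (fun p => Xf p.2 * Res q (bgA q w z) 2 p)) t := by
    funext z'
    exact (dT_iter_X_mul (h.bgA_sm.smRes q 2) i ht.2 z').symm
  rw [e]
  exact (b2 _ hp i hi j hj).trans (hmono C2 (by linarith))

end

end Claimed.Agent.R324.Core
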