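/-
Row 324 (S0582), PDE core, module AP (architect helper263), residual (A8), file Res/TsA:   SYMBOL BOUNDS OF THE BUILDING BLOCKS OF THE REGULAR FORM (profile side).       D admissible and northern (`DomOK D`, `DomN D`), n arbitrary, m ≤ 7.
      Definitions: Res/Reg.lean.       Classes/weights: Core/AP/Cal (TS, wt q a b c = (r̂^{-α})^a Θ^b (r̂²)^c).        J = bJ w,  J_a = bJa z,  α = alF q = bAl q (definitionally).
      Tools:  `BP.ap_ts_a1` (TipC):  F ∈ IsSymb J and th F + α F ∈ IsSymb J²  ⟹  atm 8 F ∈ TS m n (wt 1 0 0), m ≤ 7;       `BP.ts_atm` (TipC):  F ∈ IsSymb (J^a/(1+Ξ)^e), k + m ≤ 8a  ⟹  atm (2γe+k) F ∈ TS m n (wt a (8a-k) (-e));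
              `IsSymb.apply_th, add, const_mul` (Bohm/SymbA),  `symb_J, symb_thJ2` (Bohm/SymbCor1, 3),  `prof_Ja, prof_Ja1, prof_Ja2` (TipB),  `ap_th_add, ap_th_const_mul, ap_isSymb_congr` (TipB).

* `SlowJ h F`  :=  F ∈ IsSymb J  ∧  th F + α F ∈ IsSymb J².          `SlowJ.th`:  th F ∈ IsSymb J (`apply_th`, J ≥ 0: `ap_J_nonneg`);   th (th F) + α th F = th (th F + α F)  (linearity of th; F, th F differentiable since smooth: `IsSymb.1`, `th_contDiff_sc3`) ∈ IsSymb J² (`apply_th`, J² ≥ 0).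
* `slow_J`: `symb_J`, `symb_thJ2`.        `slow_Ja`: `prof_Ja`, `prof_Ja2`.
* `SlowJ.ts8`:  `ap_ts_a1`.
* `symb_epsJ` = `symb_thJ2` (unfold epsJ alF),  `symb_epsA` = `prof_Ja2`,  `symb_eps1` = `prof_Ja1`;   th of them: `apply_th`.
* `ts_sq8`, `ts_sq9`:  `ts_atm` with a = 2, e = 0, k = 8 resp. 9  (the weight fun x => J^2/(1+x)^0 equals fun x => J^2: funext, simp;   2γ*0 + 8 = 8: push_cast/norm_num;   8*2 - 8 = 8, 8*2 - 9 = 7, -(0:ℕ) = 0 as integers);   needs k + m ≤ 16.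
* `SlowJ.ts_thP1`, `SlowJ.ts_thP2`:   atm 8 (…) ∈ wt 1 0 0 (`SlowJ.ts8` for F, th F, th (th F)),  hPol c ∈ wt 0 7 0 (`ts_hPol`, TipD);  `TS.mul_wt`, `TS.add`, `TS.const_mul`.
-/
import Claimed.Agent.R324.Core.AP.Res.Reg

set_option autoImplicit false

namespace Claimed.Agent.R324.Core

open Set Filter Topology
open scoped ContDiff

noncomputable section

variable {D : Set (ℝ × ℝ)} {m n : ℕ} {q : ℕ} {w z F : ℝ → ℝ}

/-- profile functions which decay like `J` with the slow rate `α` up to `O(J²)`. -/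
def SlowJ (q : ℝ) (w F : ℝ → ℝ) : Prop :=
  IsSymb (bJ w) F ∧ IsSymb (fun x => bJ w x ^ 2) (fun x => th F x + bAl q * F x)

/-- hygiene. -/
theorem core_ap_tsA_hygiene : True := by
  have := @SlowJ.eq_1
  trivial

theorem BP.slow_th (h : BP q w z) (hF : SlowJ q w F) : SlowJ q w (th F) := by
  obtain ⟨h1, h2⟩ := hF
  refine ⟨h1.apply_th h.ap_J_nonneg, ?_⟩
  refine ap_isSymb_congr (h2.apply_th (fun Ξ _ => sq_nonneg _)) (fun x => rfl) (fun x => ?_)
  have dF : Differentiable ℝ F := h1.1.differentiable (by simp)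
  have dtF : Differentiable ℝ (th F) := (th_contDiff_sc3 h1.1).differentiable (by simp)
  rw [ap_th_add dtF (dF.const_mul _), ap_th_const_mul _ dF]

theorem BP.slow_J (h : BP q w z) : SlowJ q w (bJ w) := by
  exact ⟨h.bohm.symb_J h.hq, h.bohm.symb_thJ2 h.hq⟩

theorem BP.slow_Ja (h : BP q w z) : SlowJ q w (bJa z) := by
  exact ⟨h.prof_Ja, h.prof_Ja2⟩

theorem BP.ts_slow8 (h : BP q w z) (hD : DomOK D) (hN : DomN D) (hm : m ≤ 7) (hF : SlowJ q w F) :
    TS q D m n (wt q 1 0 0) (atm q 8 F) := by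
  exact h.ap_ts_a1 hD hN hm hF.1 hF.2

theorem BP.symb_epsJ (h : BP q w z) : IsSymb (fun x => bJ w x ^ 2) (epsJ q w) := by
  exact h.bohm.symb_thJ2 h.hq

theorem BP.symb_epsA (h : BP q w z) : IsSymb (fun x => bJ w x ^ 2) (epsA q z) := by
  exact h.prof_Ja2

theorem BP.symb_eps1 (h : BP q w z) : IsSymb (fun x => bJ w x ^ 2) (eps1 q w z) := by
  exact h.prof_Ja1

theorem BP.ts_sq8 (h : BP q w z) (hD : DomOK D) (hN : DomN D) (hm : m ≤ 7)
    (hF : IsSymb (fun x => bJ w x ^ 2) F) : TS q D m n (wt q 2 8 0) (atm q 8 F) := by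
  have hF' : IsSymb (fun x => bJ w x ^ 2 / (1 + x) ^ 0) F :=
    ap_isSymb_congr hF (fun x => by simp) (fun x => rfl)
  have key := h.ts_atm (n := n) (m := m) hD hN (a := 2) (e := 0) (k := 8) hF' (by omega)
  have e1 : (8 * ((2 : ℕ) : ℤ) - ((8 : ℕ) : ℤ)) = 8 := by norm_num
  have e2 : (-((0 : ℕ) : ℤ)) = 0 := by norm_num
  have e3 : (2 * gaF q * ((0 : ℕ) : ℝ) + ((8 : ℕ) : ℝ)) = 8 := by norm_num
  rw [e1, e2, e3] at key
  exact key

theorem BP.ts_sq9 (h : BP q w z) (hD : DomOK D) (hN : DomN D) (hm : m ≤ 7)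
    (hF : IsSymb (fun x => bJ w x ^ 2) F) : TS q D m n (wt q 2 7 0) (atm q 9 F) := by
  have hF' : IsSymb (fun x => bJ w x ^ 2 / (1 + x) ^ 0) F :=
    ap_isSymb_congr hF (fun x => by simp) (fun x => rfl)
  have key := h.ts_atm (n := n) (m := m) hD hN (a := 2) (e := 0) (k := 9) hF' (by omega)
  have e1 : (8 * ((2 : ℕ) : ℤ) - ((9 : ℕ) : ℤ)) = 7 := by norm_num
  have e2 : (-((0 : ℕ) : ℤ)) = 0 := by norm_num
  have e3 : (2 * gaF q * ((0 : ℕ) : ℝ) + ((9 : ℕ) : ℝ)) = 9 := by norm_num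
  rw [e1, e2, e3] at key
  exact key

theorem BP.ts_thP1 (h : BP q w z) (hD : DomOK D) (hN : DomN D) (hm : m ≤ 7) (hF : SlowJ q w F)
    (c : ℕ → ℝ) : TS q D m n (wt q 1 7 0) (thP1 q F c) := by
  have a0 := h.ts_slow8 (n := n) hD hN hm hF
  have a1 := h.ts_slow8 (n := n) hD hN hm (h.slow_th hF)
  have m1 := TS.mul_wt h.hqR hD a1 (ts_hPol (m := m) (n := n) h.hqR hD c)
  have m0 := TS.mul_wt h.hqR hD a0 (ts_hPol (m := m) (n := n) h.hqR hD (cTh c))
  simp only [add_zero, zero_add] at m1 m0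
  exact TS.add hD m1 m0

theorem BP.ts_thP2 (h : BP q w z) (hD : DomOK D) (hN : DomN D) (hm : m ≤ 7) (hF : SlowJ q w F)
    (c : ℕ → ℝ) : TS q D m n (wt q 1 7 0) (thP2 q F c) := by
  have a0 := h.ts_slow8 (n := n) hD hN hm hF
  have a1 := h.ts_slow8 (n := n) hD hN hm (h.slow_th hF)
  have a2 := h.ts_slow8 (n := n) hD hN hm (h.slow_th (h.slow_th hF))
  have m2 := TS.mul_wt h.hqR hD a2 (ts_hPol (m := m) (n := n) h.hqR hD c)
  have m1 := TS.mul_wt h.hqR hD a1 (ts_hPol (m := m) (n := n) h.hqR hD (cTh c))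
  have m0 := TS.mul_wt h.hqR hD a0 (ts_hPol (m := m) (n := n) h.hqR hD (cTh (cTh c)))
  simp only [add_zero, zero_add] at m2 m1 m0
  exact TS.add hD (TS.add hD m2 (TS.const_mul hD 2 m1)) m0

end

end Claimed.Agent.R324.Core
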